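import Vale.Agent.P004F.Es.Two

/-! # P004F, block ES: the Kolyvagin classes -/

set_option linter.all false

open NumberField Matrix PowerSeries Finset
open scoped Classical Pointwise

noncomputable section

namespace Vale.Agent.P004F.Es

open Vale.Agent.P022 Vale.Agent.P004K
open Vale.Agent.P022K.G2 (In)
open Vale.Agent.P027M.S (Inert)
open Vale.Agent.P022D.W (dec)
open Vale.Agent.P022E.GW (Ov Fb)
open P004M.TE (Pt ga)
open P004T (ds)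
open Pr (ac)
open Qx (zf Fk Ur FG FR dep op)
open Ra (sd_mul sd_sq)

variable {e : Crv} {b : Fld e} {j c : ℕ} {Ψ : GQ → Rj j} {g : GQ} {m M : Finset (b.Kp j c Ψ)}
  {k : b.Kp j c Ψ}

/-- the derived point -/
def XX (f : AddMonoid.End (Pt e.A e.B)) (m : Finset (b.Kp j c Ψ)) : Pt e.A e.B :=
  Dm _ (·.τ) (·.l + 1) m (f (b.Y (cd m)))

/-- the depletion -/
abbrev dp (b : Fld e) : AddMonoid.End (Pt e.A e.B) := dep e.N e.w e.a e.S' b.φ

/-- the class -/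
def kk (C : AddSubgroup (Pt e.A e.B)) (ι : Pt e.A e.B → Fin 2 → Rj j) (U : Finset GQ)
    (m : Finset (b.Kp j c Ψ)) (g : GQ) : Fin 2 → Rj j :=
  if g ∈ b.Γ then zz C (2 ^ j) ι U (ps e Ψ) (XX (dp b) m) g else 0

theorem exists_imp_of_imp_exists {α : Type} [Nonempty α] {p : Prop} {q : α → Prop}
    (h : p → ∃ x, q x) : ∃ x, p → q x := Classical.skolem.1 h |>.elim fun f hf =>
  if hp : p then ⟨f hp, fun _ => hf hp⟩ else ⟨Classical.ofNonempty, fun a => absurd a hp⟩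

variable (h : b.Chr j c Ψ) (r1 : RC1) (ty : TYQ)
include h r1 ty

theorem ur_fx {y : Pt e.A e.B} (hy : y ∈ Fx _ (Hc b.j (cd m))) : Ur (e.P 2) y :=
  fun g hg => hy g (in_hc h ty m hg)

variable {F C S : AddSubgroup (Pt e.A e.B)} {ι : Pt e.A e.B → Fin 2 → Rj j} {U U' T : Finset GQ}
  (hS : ∀ m : Finset (b.Kp j c Ψ), dp b (b.Y (cd m)) ∈ cor S b.Γ) (hF : S ≤ C)
  (kd : Kd (2 ^ j) C ι (rr e j))
  (fU : Fr b.Γ (Hc b.j (cd (∅ : Finset (b.Kp j c Ψ)))) U (ps e Ψ)) (red : RED)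
include hS hF kd fU red

theorem kk_cc (hM : b.Inj M) : Cc b.Γ (b.T c ∪ M.image (·.l)) (b.aa j Ψ) (kk C ι U M) := by
  haveI := hc_nrm h r1 M
  have s := sy h r1 ty hM dep_op fun m _ => hS m
  have i := s.iv fU.le Subset.rfl
  have hA : cor S b.Γ ≤ C := cor_le.trans hF
  refine ⟨fun g a g' a' => ?_, fun g a => if_neg a, ?_, fun g ⟨q, hq, P, hP, hi⟩ => ?_⟩
  · rw [kk, kk, kk, if_pos a, if_pos a', if_pos (mul_mem a a')]
    exact (zz_mul kd fU i hA a a').trans (congrArg _ (aa_vec _).symm)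
  · obtain ⟨W, h1, h2⟩ := ex_open U fun u => dv C (2 ^ j) (u • XX (dp b) M)
    exact ⟨W, h1, fun w hw => ite_eq_right_iff.2 fun _ => zz_zero kd fU i hA (h2 w hw)⟩
  · have a : q ∉ e.S := fun a => hq (mem_union_left _ (mem_union_left _ (List.mem_toFinset.2 a)))
    obtain ⟨W, _, rd, Fr, h1, h2, -⟩ := red e q P a hP
    refine ite_eq_right_iff.2 fun hg => s.unr kd fU hA (h1 j) Subset.rfl
      ((ty e b).2.2.1 q P g _ hP hi hg (cd_pos h M) fun d => ?_) (h2 g hi)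
    rcases cd_dvd h hP.1 d with d | d | d
    · exact (e.bad q hP.1 a).1 (d.mul_left _)
    · exact hq (mem_union_left _ (mem_union_right _ d))
    · exact hq (mem_union_right _ (mem_image.2 d))

theorem kk_kf (hM : b.Inj M) (hk : k ∈ M) : kk C ι U M (k.φ ^ 2) = 0 := by
  haveI := hc_nrm h r1 M
  have s := sy h r1 ty hM dep_op fun m _ => hS m
  obtain ⟨W, _, rd, Fr, h1, h2, h3, h4, -⟩ := red e k.l k.P (kp_S k) k.kp.ov
  refine ite_eq_right_iff.2 fun _ => s.trv kd fU (cor_le.trans hF) (h1 j) Subset.rfl hk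
    (Ra.kp_hc k r1 (cd_pos h M)) (fun Q hQ => ?_) (h2 _ k.kp.gn.1)
  obtain ⟨a, ha⟩ := s.da k
  obtain ⟨d, hd⟩ := (dvd_mul_left _ 2).trans (s.dd k)
  have a1 : (k.l + 1) • rd Q = 0 := by rw [hd, mul_nsmul, hQ, smul_zero]
  rw [sq, mul_smul, ← ga_eq, h3 _ k.kp.fb, ← ga_eq, h3 _ k.kp.fb, h4, ha, mul_comm, mul_smul,
    natCast_zsmul, ← map_nsmul, hQ, map_zero, smul_zero, natCast_zsmul, zero_sub,
    neg_eq_iff_add_eq_zero, ← succ_nsmul, a1]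

theorem kk_rel (hk : k ∉ m) (hM : b.Inj (insert k m)) :
    (e.r b.c).map (cj j) *ᵥ kk C ι U (insert k m) k.τ = kk C ι U m (k.φ ^ 2) := by
  haveI := hc_nrm h r1 (insert k m)
  have s := sy h r1 ty hM dep_op fun m _ => hS m
  obtain ⟨W, _, rd, Fr, h1, h2, h3, h4, h5⟩ := red e k.l k.P (kp_S k) k.kp.ov
  have a := fun m : Finset (b.Kp j c Ψ) => (ty e b).2.1 _ k.kp.out _ (cd_pos h m)
  rw [kk, kk, if_pos (s.tm k), sq, if_pos (show _ ∈ b.Γ from (a m).1), XX, s.fs kd fU (cor_le.trans hF) (h1 j) hk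
    Subset.rfl (k.gen _ (cd_pos h ∅) (cd_nd h (notMem_empty k) (inj_sub hM (by simp)))).1
    (h2 _ k.kp.gn.1) (h3 _ k.kp.fb) (by simpa using h4) (a m) (a ∅)
    (s.cm.rel dep_op (q := Fr.comp rd) (Y_fx h _)
      (fun g hg => Y_fx h m g (hc_le h r1 (subset_insert _ _) hg))
      fun u _ => h5 _ _ _ k.kp.fb (ine_cd h r1 ty hk hM).2 u)]
  exact (mulVec_mulVec _ _ _).trans (by rw [((ty e b).2.2.2 j c Ψ k).2, one_mulVec])

omit red in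
theorem kk_sp (hM : b.Inj M) {p : ℕ} (hp : p ∈ e.S) {K : AddSubgroup (Pt e.A e.B)} (h1 : S ≤ K)
    (h2 : Ud 2 K) (h3 : ∀ g ∈ dec (e.P p), ∀ y ∈ K, g • y ∈ K) :
    ∃ μ, ∀ g ∈ dec (e.P p), kk C ι U M g = ac (b.aa j Ψ g - 1) μ := by
  haveI := hc_nrm h r1 M
  obtain ⟨μ, a⟩ := zz_str kd fU ((sy h r1 ty hM dep_op fun m _ => hS m).iv fU.le Subset.rfl)
    (cor_le.trans hF) (h2.pow j) (cor_le.trans h1)
  refine ⟨μ, fun g hg => ?_⟩
  rw [kk, if_pos (b.le p hp hg), XX, a g (b.le p hp hg) (h3 g hg), ← aa_vec]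
  exact ((sub_mulVec _ _ _).trans (by rw [one_mulVec])).symm

omit hF kd red

variable (gns : GNS) {Z : AddSubgroup Qb} {e₀ : Pt e.A e.B} (l : L2 (e.P 2) (e.S'.prod ^ 2) F Z)
  (he : ∀ k, Fe (2 ^ k) F (b.φ 2) (2 ^ (2 * j)) e₀) (hj : 0 < j) (h0 : S ≤ F)
  (fU' : Fr b.Γ (Hk h) U' (ps e Ψ))
  (fT : Fr (Hk h) (Hc b.j (cd (∅ : Finset (b.Kp j c Ψ)))) T fun _ => (1 : ℤ))
  (ex : ∀ y ∈ F, ∀ v ∈ F, b.φ 2 ^ 2 ^ (2 * j) • y = y + 2 ^ j • v →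
    ∃ a, Co (2 ^ j) F (b.φ 2) (2 ^ (2 * j)) e₀ y a)
include l he hj h0 fU' fT

omit l he hj h0 in
theorem iv_tr (hM : b.Inj M) :
    Iv (2 ^ j) b.Γ (Hk h) (cor S b.Γ) (∑ v ∈ T, v • XX (dp b) M) :=
  haveI := hc_nrm h r1 M
  ((sy h r1 ty hM dep_op fun m _ => hS m).iv fU.le Subset.rfl).tr fT fU'.le

include ex in
omit l he in
theorem ex_co (hM : b.Inj M) : ∃ c : GQ → ℕ → ℤ, ∀ u ∈ b.Γ,
    Co (2 ^ j) F (b.φ 2) (2 ^ (2 * j)) e₀ (u • ∑ v ∈ T, v • XX (dp b) M) (c u) := by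
  have i := iv_tr h r1 ty hS fU fU' fT hM
  have : ∀ u ∈ b.Γ, ∃ a, Co (2 ^ j) F (b.φ 2) (2 ^ (2 * j)) e₀ (u • ∑ v ∈ T, v • XX (dp b) M) a :=
    fun u hu => by
      obtain ⟨w, hw, a⟩ := i.eq hu (hk_cj h hj u hu)
      refine ex _ (h0 (cor_le (i.cj hu))) w (h0 (cor_le hw)) ?_
      rwa [mul_assoc, mul_inv_cancel_left, mul_smul] at a
  choose! c hc using this
  exact ⟨c, hc⟩

variable {cc : GQ → ℕ → ℤ} (hM : b.Inj M) (hc : ∀ u ∈ b.Γ,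
  Co (2 ^ j) F (b.φ 2) (2 ^ (2 * j)) e₀ (u • ∑ v ∈ T, v • XX (dp b) M) (cc u))
include hM hc

include gns kd in
omit hj in
theorem kk_sv (hF : F ≤ C) (hg : g ∈ dec (e.P 2)) (i : Fin 2) : kk C ι U M g i =
    ee b C ι e₀ (Ψ (b.φ 2)) g i • ∑ u ∈ U', ps e Ψ u * cc u 0 := by
  haveI := hc_nrm h r1 M
  have a := b.le 2 e.two hg
  rw [kk, if_pos a, XX, zz_tr kd fU fU' fT ((sy h r1 ty hM dep_op fun m _ => hS m).iv fU.le Subset.rfl)
    (cor_le.trans (h0.trans hF)) a, ee_eq h r1 gns ty l he hg]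
  exact (congrFun (zz_two fU' (iv_tr h r1 ty hS fU fU' fT hM) (cor_le.trans h0) (he j) (ph_mem b)
    (hn j) hc kd hF a (l.st g hg)) i).trans (mul_comm _ _)

include gns ex in
theorem t_dv {c₁ : ℕ} (sp : ∀ y : Pt e.A e.B, Ur (e.P 2) y → ∃ (n k : ℕ) (w : Pt e.A e.B), Odd n ∧
      2 ^ k • w = 0 ∧ Ur (e.P 2) w ∧ Fk (e.P 2) (e.S'.prod ^ 2) ((2 ^ c₁ * n) • y - w)) :
    2 * ps e Ψ (b.φ 2) ^ 2 - e.a 2 * ps e Ψ (b.φ 2) + (if 2 ∣ e.N then 0 else 1) ∣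
      2 ^ c₁ * ∑ u ∈ U', ps e Ψ u * cc u 0 := by
  haveI := hc_nrm h r1 M
  obtain ⟨V, fV⟩ := ex_frm h r1 gns M
  have y1 : ∀ m ⊆ M, b.Y (cd m) ∈ Fx _ (Hc b.j (cd M)) :=
    fun m a g hg => Y_fx h m g (hc_le h r1 a hg)
  obtain ⟨n, S₁, h1, h2, h3⟩ := ex_core (F := F) (c := 2 ^ c₁) fV M.powerset
    (z := fun m => dp1 b (b.Y (cd m))) (fun m a => fx_op dp1_op (y1 m (mem_powerset.1 a)))
    fun y hy => by
      have u := ur_fx h r1 ty hy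
      obtain ⟨n, k, w, a1, a2, a3, a4⟩ := sp y u
      exact ⟨n, k, w, a1, a2, (l.mem _).2 ⟨a4, fun g hg => by
        rw [map_sub, map_nsmul, u g hg, a3 g hg]⟩⟩
  have s := sy h r1 ty hM dp1_op fun m a => h2 m (mem_powerset.2 a)
  have x1 : XX (dp1 b) M ∈ Fx _ (Hc b.j (cd M)) := fx_op (s.op M) (s.fxN Subset.rfl)
  have x2 : XX (dp b) M = op e.N e.a 2 (b.φ 2) (XX (dp1 b) M) := by
    rw [XX, dep_eq s.cm (y1 M Subset.rfl)]
    exact s.cm.op (s.op M) (op_op e.two) (s.fxN Subset.rfl)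
  have := dv_abs (X := ∑ v ∈ T, v • XX (dp1 b) M) fU' ((s.iv fU.le Subset.rfl).tr fT fU'.le) (he j) (ph_mem b) (hn j) l.tf ex
    (hk_cj h hj) (fun y hy => h3 y (cor_le hy)) hc (a := e.a 2) (b := if 2 ∣ e.N then 0 else 1)
    (fun u hu => h0 (cor_le ((iv_tr h r1 ty hS fU fU' fT hM).cj hu))) fun u hu => by
      rw [← op_two_eq, s.cm.op1 (op_op e.two) hu (sum_mem fun v _ => fx_smul v x1), map_sum, x2]
      exact congrArg _ (sum_congr rfl fun v hv =>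
        (s.cm.op1 (op_op e.two) (fU'.le (fT.mem v hv)) x1).symm)
  have u : IsUnit (ps e Ψ (b.φ 2)) := by
    refine IsUnit.mul (.of_pow_eq_one (h.ord _ (ph_mem b)) (by positivity)) ?_
    exact .of_mul_eq_one _ (by rw [← Int.cast_mul, sd_sq, Int.cast_one])
  rw [(u.pow 2).dvd_mul_left] at this
  push_cast at this
  rwa [mul_right_comm, (odd_unit (hn j) h1).dvd_mul_right] at this

omit hM hc

variable (hc' : ∀ u ∈ b.Γ, Co (2 ^ j) F (b.φ 2) (2 ^ (2 * j)) e₀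
  (u • ∑ v ∈ T, v • XX (dp b) (∅ : Finset (b.Kp j c Ψ))) (cc u))

omit h r1 ty hS fU l he hj h0 fU' fT in
theorem XX_empty : XX (dp b) (∅ : Finset (b.Kp j c Ψ)) = dp b (b.Y (e.δ * c)) := by
  rw [XX, Dm_empty, cd_empty]

omit r1 ty hS l he hj h0 fU' fT h in
theorem tv : b.Tv (e.δ * c) U := ⟨fU.mem, cd_empty (b := b) (Ψ := Ψ) ▸ fU.rep⟩

omit ty hS fU l he hj h0 fU' fT in
theorem XX_fx : ∀ u : GQ, ∀ g ∈ Hc b.j (cd (∅ : Finset (b.Kp j c Ψ))),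
    (u * g) • XX (dp b) (∅ : Finset (b.Kp j c Ψ)) = u • XX (dp b) (∅ : Finset (b.Kp j c Ψ)) :=
  fun u g hg => by
    haveI := hc_nrm h r1 ∅
    rw [mul_smul, XX, Dm_empty, fx_op dep_op (Y_fx h ∅) g hg]

include hc'

theorem t_an (lam : LAM) (χ : GQ → ℕ)
    (h1 : ∀ g ∈ b.Γ, Ψ g - mj j (1 + X) ^ χ g ∈ Ideal.span {(2 : Rj j)}) {n : ℕ} (hl : n < j)
    (an : b.An e.S' (e.δ * c) χ n) :
    ∑ u ∈ U', ps e Ψ u * cc u 0 ∉ Ideal.span {2, mj j X ^ (n + 1)} := fun ht => by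
  haveI := hc_nrm h r1 ∅
  have hM : b.Inj (∅ : Finset (b.Kp j c Ψ)) := fun _ a => absurd a (notMem_empty _)
  obtain ⟨i, hi, a⟩ := an U (tv fU)
  obtain ⟨la, l1, l2⟩ := lam j n i hi hl
  have i0 := (sy h r1 ty hM dep_op fun m _ => hS m).iv fU.le Subset.rfl
  have a1 := (tr_sum (X := XX (dp b) (∅ : Finset (b.Kp j c Ψ))) fU fU' fT
    (fun u hu => h0 (cor_le (i0.cj hu))) l.ad
    (fun u _ g hg => by rw [XX_fx h r1 u g hg]) (θ := fun u => (la (ps e Ψ u)).val)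
    fun u hu g hg => by rw [fU'.psi hu hg]).trans (theta fU' (iv_tr h r1 ty hS fU fU' fT hM)
      (cor_le.trans h0) (he j) (ph_mem b) (hn j) hc' (dvd_pow_self 2 hj.ne') l.ad l.two
      fun s => l1 _ (Ideal.mul_mem_left _ s ht))
  refine a ((l.z _).1 ((QuotientAddGroup.eq_zero_iff _).1 ?_))
  rw [← a1, ← QuotientAddGroup.mk'_apply, map_sum]
  refine sum_congr rfl fun u hu => ?_
  have a2 : la (ps e Ψ u) = (χ u).choose i := by
    obtain ⟨s, hs⟩ : ∃ s : ℤ, sd (ds e.δ) u = 1 + 2 * s := by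
      unfold sd
      split
      exacts [⟨0, rfl⟩, ⟨-1, rfl⟩]
    rw [← l2, ← sub_eq_zero, ← map_sub]
    refine l1 _ (Ideal.span_mono (Set.singleton_subset_iff.2 (Set.mem_insert _ _)) ?_)
    convert add_mem (h1 u (fU.mem u hu)) (Ideal.mem_span_singleton.2 (dvd_mul_right 2 (Ψ u * s)))
      using 1
    rw [ps, hs]
    push_cast
    ring
  rw [a2, ZMod.val_natCast, ← nsmul_eq_mul, map_nsmul, ← XX_empty (Ψ := Ψ)]
  exact nsmul_eq_mod_nsmul _ (l.two _ (h0 (cor_le (i0.cj (fU.mem u hu)))))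

omit hj in
theorem t_tor (tow : TOW) (h1 : ∀ g ∈ b.Γ, Ψ g - 1 ∈ Ideal.span {mj j X}) (tor : b.Tor) :
    ∑ u ∈ U', ps e Ψ u * cc u 0 ∈ Ideal.span {mj j X} := by
  haveI := hc_nrm h r1 ∅
  have hM : b.Inj (∅ : Finset (b.Kp j c Ψ)) := fun _ a => absurd a (notMem_empty _)
  have s := sy h r1 ty hM dep_op fun m _ => hS m
  have i := iv_tr h r1 ty hS fU fU' fT hM
  have a1 := tr_sum (A := ⊤) (β := id) fU fU' fT (fun _ _ => trivial) (fun _ _ _ _ => rfl)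
    (fun u _ g hg => XX_fx h r1 u g hg) (θ := sd (ds e.δ))
    fun u hu g hg => by rw [sd_mul, hg.2.2, mul_one]
  have a2 := tor_abs (he j) (hn j) l.tf
    (sum_mem fun u hu => zsmul_mem (h0 (cor_le (i.cj (fU'.mem u hu)))) (sd (ds e.δ) u))
    (Co.sum fun u hu => (hc' u (fU'.mem u hu)).zsmul (sd (ds e.δ) u)) (by
      convert (dp b).isOfFinAddOrder (tow e b c h.sq h.cop tor U (tv fU)) using 1
      refine a1.symm.trans ((sum_congr rfl fun u hu => ?_).trans (map_sum (dp b) _ _).symm)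
      rw [map_zsmul, XX_empty, ga_eq, s.cm.op1 dep_op (fU.mem u hu) (cd_empty (Ψ := Ψ) ▸ Y_fx h ∅)]
      rfl)
  rw [← sub_zero (∑ u ∈ U', _), ← a2, Finset.sum_apply, Int.cast_sum, ← sum_sub_distrib]
  refine sum_mem fun u hu => ?_
  convert Ideal.mul_mem_right (sd (ds e.δ) u * cc u 0 : Rj j) _ (h1 u (fU'.mem u hu)) using 1
  rw [ps, Pi.smul_apply, smul_eq_mul]
  push_cast
  ring

omit h r1 ty hS fU l he hj h0 fU' fT hc'

/-- **the Kolyvagin classes** -/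
theorem es (fg : FG) (fr : FR) (idx : IDX) (spl : SPL) (r1 : RC1) (gns : GNS) (ty : TYQ) (red : RED)
    (coo : COO) (tow : TOW) (lam : LAM) : ES := fun e b => by
  obtain ⟨F, Z, l⟩ := ex_l2 fg e.par.disc (ov2 e) (kap_ne (e := e)) kap_two
  obtain ⟨C, hC, ud⟩ := ex_ud (P004M.TE.dbl_surj two_ne_zero (hq e.par.disc)) l.tf
  obtain ⟨N, N0, hN⟩ := idx _ _ e.par.disc _ _ (ov2 e) (fb2 b) _ 2 (kap_ne (e := e)) two_ne_zero
  obtain ⟨c₂, N, odd, rfl⟩ := Nat.exists_eq_two_pow_mul_odd N0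
  obtain ⟨c₁, sp⟩ := exists_imp_of_imp_exists fun h => spl e h _ (kap_ne (e := e))
  have σS : ∀ p ∈ e.σ, p ∈ e.S' ∧ p ≠ 2 := fun p hp =>
    ⟨List.mem_toFinset.1 (mem_filter.1 hp).1, (mem_filter.1 hp).2.1⟩
  choose! K K1 K2 K3 using fun p (hp : p ∈ e.σ) =>
    ex_K1 fg e.par.disc (e.ov p (mem_S'.1 (σS p hp).1).1) (σS p hp).2
  refine ⟨c₁ + c₂, fun j hj => ?_⟩
  obtain ⟨ι, i1, i2, i3, i4⟩ := coo e j
  obtain ⟨e₀, he, ex⟩ := l.gen fr e.par.disc (ov2 e) kap_ne kap_two (fb2 b)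
    (f := 2 ^ (2 * j)) (by positivity)
  have kd : Kd (2 ^ j) C ι (rr e j) := ⟨ud.pow j, fun x a y => i1 x y a, i2⟩
  refine ⟨ee b C ι e₀, fun c Ψ h => ?_⟩
  obtain ⟨U, fU⟩ := ex_frm h r1 gns ∅
  obtain ⟨⟨U', fU'⟩, T, fT⟩ := ex_frk h r1 gns
  have h0 : F ⊓ ⨅ p ∈ e.σ, K p ≤ F := inf_le_left
  have hS : ∀ m : Finset (b.Kp j c Ψ), dp b (b.Y (cd m)) ∈ cor (F ⊓ ⨅ p ∈ e.σ, K p) b.Γ :=
    fun m g hg => by
      haveI := hc_nrm h r1 m
      have := b.qx _ (cd_pos h m) (cd_cop h m) g hg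
      exact ⟨(l.mem _).2 ⟨this 2 two_S', ur_fx h r1 ty (fx_smul g (fx_op dep_op (Y_fx h m)))⟩,
        AddSubgroup.mem_iInf.2 fun p => AddSubgroup.mem_iInf.2 fun hp =>
          (K1 p hp _).2 (this p (σS p hp).1).1⟩
  have hF := h0.trans hC
  choose! cc hc using fun M => ex_co h r1 ty hS fU hj h0 fU' fT (ex j) (M := M)
  choose μ hμ using fun M (p : e.σ) => exists_imp_of_imp_exists fun hM =>
    kk_sp h r1 ty hS hF kd fU (M := M) hM (mem_S'.1 (σS p p.2).1).1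
      (inf_le_right.trans (biInf_le _ p.2)) (K2 p p.2) (K3 p p.2)
  have h1 : b.Inj (∅ : Finset (b.Kp j c Ψ)) := fun _ a => absurd a (notMem_empty _)
  refine ⟨kk C ι U, fun M => ∑ u ∈ U', ps e Ψ u * cc M u 0, μ,
    ee_coc h r1 gns ty l he kd hC hj, ee_lc he kd hC _, fun a k hk s v hs => ?_,
    fun M hM => ⟨kk_cc h r1 ty hS hF kd fU red hM,
      fun g => kk_sv h r1 ty hS kd fU gns l he h0 fU' fT hM (hc M hM) hC, fun p => hμ M p hM⟩,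
    fun M hM k => kk_kf h r1 ty hS hF kd fU red hM, fun M k => kk_rel h r1 ty hS hF kd fU red,
    fun a M hM ψ hψ => ?_,
    fun χ a n => t_an h r1 ty hS fU l he hj h0 fU' fT (hc _ h1) lam χ a,
    t_tor h r1 ty hS fU l he h0 fU' fT (hc _ h1) tow⟩
  · rw [pow_add, mul_assoc]
    exact (ee_free h r1 gns ty l he kd hC hj odd hN i3 i4 a hk s v hs).mul_left _
  · rw [hψ, mul_comm (sd _ _ : Rj j), add_comm c₁, pow_add, mul_assoc]
    exact (t_dv h r1 ty hS fU gns l he hj h0 fU' fT (ex j) hM (hc M hM) (sp a)).mul_left _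

end Vale.Agent.P004F.Es
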