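import Vale.Agent.P004F.Es.St

/-! # P004F, block ES: rows COO (coordinates) and LAM (coefficients modulo two) -/

set_option linter.all false

open NumberField Matrix PowerSeries
open scoped Classical

noncomputable section

namespace Vale.Agent.P004F.Es

open Vale.Agent.P022 P004M.TE P027M.K Pat

theorem cj_two (j : ℕ) (x : ℤ_[2]) : cj j (2 ^ j * x) = 0 :=
  Ideal.Quotient.eq_zero_iff_mem.2 (by
    rw [map_mul, ← two_C]; exact Ideal.mul_mem_right _ _ (two_Im j))

/-- **row COO** -/
theorem coo : COO := by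
  intro e j
  have hD := hq e.par.disc
  have k : ∀ x : Pt e.A e.B, ∃ t : Tm e.A e.B, 2 ^ j • x = 0 → TM.cp j t = x := fun x => by
    by_cases h : 2 ^ j • x = 0
    · exact (TM.exists_cp (hdiv hD) h).imp fun _ h _ => h
    · exact ⟨0, fun h' => absurd h' h⟩
  choose T hT using k
  have key : ∀ t : Tm e.A e.B, (fun i => cj j ((bs hD).repr (T (TM.cp j t)) i)) =
      fun i => cj j ((bs hD).repr t i) := fun t => funext fun i => by
    obtain ⟨y, hy⟩ := (TM.cp_eq_zero_iff (x := T (TM.cp j t) - t) (r := j)).1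
      (by rw [map_sub, hT _ (TM.pow_smul_cp t j), sub_self])
    rw [← sub_eq_zero, ← map_sub, ← Finsupp.sub_apply, ← map_sub, hy, map_smul,
      Finsupp.smul_apply, smul_eq_mul]
    exact cj_two j _
  refine ⟨fun x i => cj j ((bs hD).repr (T x) i), fun x y hx hy => ?_, fun g x hx => ?_,
    fun v => ?_, fun k hk x hx h => ?_⟩
  · have := key (T x + T y)
    rw [map_add, hT x hx, hT y hy] at this
    exact this.trans (funext fun i => by simp)
  · have := key (rho _ _ g (T x))
    rw [cp_rho, hT x hx] at this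
    refine this.trans (funext fun i => ?_)
    have k := congrFun (LinearMap.toMatrix_mulVec_repr (bs hD) (bs hD) (rho _ _ g) (T x)) i
    rw [← k]
    exact RingHom.map_mulVec (cj j) _ _ i
  · refine ⟨TM.cp j ((bs hD).equivFun.symm v), TM.pow_smul_cp _ j, (key _).trans ?_⟩
    funext i
    rw [← Module.Basis.equivFun_apply, LinearEquiv.apply_symm_apply]
  · rcases j.eq_zero_or_pos with rfl | j0
    · simpa using hx
    have d : ∀ i, ∃ r, (bs hD).repr (T x) i = 2 ^ k * r := fun i => by
      obtain ⟨a, b, hab⟩ := Ideal.mem_span_pair.1 (h i)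
      obtain ⟨a, rfl⟩ := Ideal.Quotient.mk_surjective a
      obtain ⟨b, rfl⟩ := Ideal.Quotient.mk_surjective b
      have m : a * 2 ^ k + b * X - C ((bs hD).repr (T x) i) ∈ Im j := Ideal.Quotient.eq.1 (by
        rw [map_add, map_mul, map_mul, map_pow, map_ofNat]; exact hab)
      have m2 := (pow_dvd_pow _ hk).trans (mem_Im.1 m 0 j0)
      rw [two_C, map_sub, map_add, coeff_mul_C, coeff_zero_mul_X, add_zero, coeff_zero_C] at m2
      exact (dvd_sub_right (Dvd.intro_left _ rfl)).1 m2
    choose r hr using d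
    have e1 : T x = ((2 : ℕ) : ℤ_[2]) ^ k • (bs hD).equivFun.symm r :=
      (bs hD).equivFun.injective (funext fun i => by
        rw [map_smul, LinearEquiv.apply_symm_apply, Module.Basis.equivFun_apply, hr]; rfl)
    rw [← hT x hx, e1, TM.cp_pow_smul, smul_smul, ← pow_add, Nat.sub_add_cancel hk,
      TM.pow_smul_cp]

/-- **row LAM** -/
theorem lam : LAM := by
  intro j l i hi hl
  have two : PadicInt.toZMod (2 : ℤ_[2]) = 0 := by rw [map_ofNat]; rfl
  let f : La →+ ZMod 2 := (PadicInt.toZMod (p := 2)).toAddMonoidHom.comp (coeff i).toAddMonoidHom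
  have f0 : ∀ x, f x = PadicInt.toZMod (coeff i x) := fun _ => rfl
  refine ⟨QuotientAddGroup.lift (Im j).toAddSubgroup f fun x hx => ?_, fun x hx => ?_, fun n => ?_⟩
  · obtain ⟨y, hy⟩ := (dvd_pow_self _ (by omega)).trans (mem_Im.1 hx i (by omega))
    rw [AddMonoidHom.mem_ker, f0, hy, map_mul, two, zero_mul]
  · obtain ⟨a, b, rfl⟩ := Ideal.mem_span_pair.1 hx
    obtain ⟨a, rfl⟩ := Ideal.Quotient.mk_surjective a
    obtain ⟨b, rfl⟩ := Ideal.Quotient.mk_surjective b
    change f (a * C 2 + b * X ^ (l + 1)) = 0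
    rw [f0, map_add, coeff_mul_C, X_pow_dvd_iff.1 (Dvd.intro_left b rfl) i (by omega), add_zero,
      map_mul, two, mul_zero]
  · rw [← map_pow]
    change f ((1 + X) ^ n) = _
    have := Polynomial.coeff_coe (R := ℤ_[2]) ((1 + Polynomial.X) ^ n) i
    rw [Polynomial.coeff_one_add_X_pow] at this
    rw [f0, show coeff i ((1 + X : La) ^ n) = n.choose i by simpa using this, map_natCast]

end Vale.Agent.P004F.Es
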