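import Vale.Agent.P004F.Es.St
import Vale.Agent.P004K.Rc.Cyc
import Vale.Agent.P004R.Ext0
import Vale.Agent.P022K.Cheb.Main

/-! # P004F, block ES: genus theory -/

set_option linter.all false

open NumberField
open scoped NumberTheorySymbols

noncomputable section

namespace Vale.Agent.P004F.Es

open Vale.Agent.P022 Vale.Agent.P004K Vale.Agent.P004K.Rc Vale.Agent.P004R.Xt
open Vale.Agent.P022E.GW (Ov Fb)
open P004S (nu kn)
open P004T (ds)

/-- the ring class field of odd conductor `δ` contains the square root of `± δ` -/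
theorem Gs.gen (r1 : RC1) (r2 : RC2) {K : Type} [Field K] [NumberField K] (j : K →+* Qb)
    (iq : Iq K) {δ : ℕ} (ho : Odd δ) {g : GQ} (hg : g ∈ Hc j δ) : nu (ds δ) g = 0 := by
  have d0 := ho.pos
  obtain ⟨-, op, nr, -⟩ := r1 K j iq δ d0
  have nk : (kn (ds δ)).Normal := ⟨fun n hn t => (P004S.nu_conj _ t n).trans hn⟩
  obtain ⟨l, φ, hl, hS, ⟨P, p1, p2, f⟩, hU⟩ := P022K.Cheb.cheb (Hc j δ ⊓ kn (ds δ)) inferInstance
    (op.inter (P004S.kn_open _)) g (insert 2 δ.primeFactors)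
  rw [Finset.mem_insert, not_or] at hS
  have ld : ¬ l ∣ δ := fun k => hS.2 (Nat.mem_primeFactors.2 ⟨hl, k, d0.ne'⟩)
  have o : Ov l P := ⟨hl, p1, p2⟩
  have hφ : φ ∈ Hc j δ := by simpa using mul_mem hg hU.1
  have e1 : nu (ds δ) φ = nu (ds δ) g := by
    rw [← mul_inv_cancel_left g φ, P004S.nu_mul, show nu (ds δ) (g⁻¹ * φ) = 0 from hU.2, add_zero]
  have nb := norm_below iq o f hφ.1
  have dP : (δ : 𝓞 Qb) ∉ P := fun k => ld (Int.natCast_dvd_natCast.1
    (P004S.ov_dvd o (a := δ) (by exact_mod_cast k)))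
  have P0 : P ≠ ⊥ := fun k => hl.ne_zero (by
    rw [k, Ideal.mem_bot] at p2
    exact_mod_cast p2)
  obtain ⟨-, -, -, -, a5, -, a7⟩ := r2 K j iq δ d0
  have ar := a7 P p1 P0 dP φ hφ.1 1 (by rw [pow_one, nb]; exact f)
  rw [pow_one] at ar
  obtain ⟨u, v, uv⟩ : IsCoprime (l : 𝓞 K) δ := by
    simpa using (Nat.isCoprime_iff_coprime.2 ((Nat.Prime.coprime_iff_not_dvd hl).2 ld)).map
      (Int.castRingHom (𝓞 K))
  have cp : Cop δ (below j P) := cop_of (fun k => hl.ne_zero (by rw [← nb, k, Ideal.absNorm_bot]))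
    (Ideal.mul_mem_left _ u (nb ▸ Ideal.absNorm_mem (below j P))) (b := v) (by rw [← uv]; ring)
  obtain ⟨k, a, e2⟩ := (a5 _ _ cp ar).1 hφ
  obtain ⟨ω, w1, w2⟩ := iq0 j iq
  obtain ⟨s, q⟩ := ex_qd (JJ_inj j) w1 w2
  obtain ⟨n, hn⟩ := q.nm (k + δ * a)
  have n0 : 0 ≤ n := by
    have := congrArg (JJ j) hn
    rw [map_mul, q.cj, Complex.mul_conj, map_intCast] at this
    have h2 : Complex.normSq (JJ j (k + δ * a)) = n := by exact_mod_cast this
    exact_mod_cast h2 ▸ Complex.normSq_nonneg _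
  have nl : (l : ℤ) = n := by rw [← nb, e2, nm_eq iq q hn, Int.natAbs_of_nonneg n0]
  have md : (δ : ℤ) ∣ l - k ^ 2 := q.dvd_int ⟨k * s a + k * a + δ * a * s a, by
    rw [map_add, map_mul, map_intCast, map_natCast, ← nl] at hn
    push_cast at hn ⊢
    linear_combination -hn⟩
  have j1 : J(l | δ) = 1 := by
    rw [jacobiSym.mod_left' (a₂ := k ^ 2) (Int.emod_eq_emod_iff_emod_sub_eq_zero.2 (Int.emod_eq_zero_of_dvd md))]
    exact jacobiSym.sq_one' (Int.isCoprime_iff_gcd_eq_one.1 (q.cop_int (e2 ▸ cp)))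
  have lo := hl.odd_of_ne_two hS.1
  have j2 : J(ds δ | l) = 1 := by
    rw [← j1, jacobiSym.quadratic_reciprocity' lo ho, qrSign, ← jacobiSym.mul_left, ds, P004Z.eps,
      jacobiSym.at_neg_one ho]
  have := ch_fb o f hS.1 (m := ds δ) fun c => by
    rw [jacobiSym.mod_left' (a₂ := 0) (by simpa using c), jacobiSym.zero_left hl.one_lt] at j2
    exact zero_ne_one j2
  rw [← e1]
  exact sn_inj (this.trans j2)

/-- **GNS** -/
theorem gns (r1 : RC1) (r2 : RC2) : GNS := fun e b _ hg => Gs.gen r1 r2 b.j b.iq e.ok.odd hg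

end Vale.Agent.P004F.Es
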