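import Vale.Agent.P004F.Es.St
import Vale.Agent.P022.H20.Frob

/-! # P004F, block ES: reduction at a good prime -/

set_option linter.all false

open scoped Classical

noncomputable section

namespace Vale.Agent.P004F.Es.Rd

open Polynomial WeierstrassCurve.Affine Vale.Agent.P004H.H666 NumberField IsDedekindDomain
open Vale.Agent.P004M.TE
open Vale.Agent.P004K (Ip K1)

theorem ex_val {P : Ideal (𝓞 Qb)} (hP : P.IsPrime) {p : ℕ} (hp : p ≠ 0) (h : (p : 𝓞 Qb) ∈ P) :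
    ∃ O : ValuationSubring Qb, O.valuation p < 1 ∧ (∀ z, O.valuation z ≤ 1 → Ip P z) ∧
      ∀ (g : GQ) (e : ℕ), e ≠ 0 →
      (∀ x : 𝓞 Qb, g • x - x ^ e ∈ P) → ∀ z, (O.valuation (g z) ≤ 1 ↔ O.valuation z ≤ 1) ∧
        (O.valuation z ≤ 1 → O.valuation (g z - z ^ e) < 1) := by
  have h1 : ∀ x : Qb, x ∈ loc hP ∨ x⁻¹ ∈ loc hP := by
    intro x
    obtain ⟨s, t, h2, h3 | h3⟩ := dich hP hp h x
    · exact Or.inl ⟨s, t, h2, h3⟩
    · by_cases hx : x = 0
      · exact Or.inl (hx ▸ (loc hP).zero_mem)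
      · refine Or.inr ⟨s, t, h2, ?_⟩
        rw [← h3, mul_comm x, mul_inv_cancel_right₀ hx]
  have hO : ∀ x, x ∈ ValuationSubring.ofSubring (loc hP) h1 ↔ x ∈ loc hP := fun x => Iff.rfl
  generalize ValuationSubring.ofSubring (loc hP) h1 = O at hO
  refine ⟨O, lt_one hP hO hP.one_notMem h (by simp),
    fun z hz => (hO z).1 ((O.valuation_le_one_iff z).1 hz), fun g e he h4 => ?_⟩
  have key : ∀ z, O.valuation z ≤ 1 → O.valuation (g z - z ^ e) < 1 := by
    intro x hx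
    obtain ⟨s, t, h2, h3⟩ := (hO x).mp ((O.valuation_le_one_iff x).1 hx)
    have h6 : s ^ e ∉ P := fun h6 => h2 (hP.mem_of_pow_mem e h6)
    have h5 : g • s ∉ P := fun h7 => h6 (by simpa using P.sub_mem h7 (h4 s))
    refine lt_one hP hO (s := s ^ e * g • s) (t := s ^ e * (g • t - t ^ e) - t ^ e * (g • s - s ^ e))
      (fun h7 => (hP.mem_or_mem h7).elim h6 h5)
      (P.sub_mem (P.mul_mem_left _ (h4 t)) (P.mul_mem_left _ (h4 s))) ?_
    have h7 := congrArg g h3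
    rw [map_mul] at h7
    change (s : Qb) ^ e * g s * (g x - x ^ e) = s ^ e * (g t - t ^ e) - t ^ e * (g s - s ^ e)
    rw [← h7, ← h3]
    ring
  refine fun z => ⟨⟨fun hz => ?_, fun hz => ?_⟩, key z⟩
  · by_contra hc
    rw [not_le] at hc
    have hz0 : z ≠ 0 := by rintro rfl; simp at hc
    have h5 : O.valuation z⁻¹ < 1 := by rw [map_inv₀]; exact inv_lt_one_of_one_lt₀ hc
    have h6 : O.valuation (g z⁻¹) < 1 := by
      rw [← sub_add_cancel (g z⁻¹) (z⁻¹ ^ e)]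
      exact O.valuation.map_add_lt (key _ h5.le) (by rw [map_pow]; exact pow_lt_one₀ zero_le' h5 he)
    rw [map_inv₀, map_inv₀, inv_lt_one₀ (zero_lt_iff.2 ((_root_.map_ne_zero _).2
      ((_root_.map_ne_zero g).2 hz0)))] at h6
    exact absurd hz (not_le.2 h6)
  · rw [← sub_add_cancel (g z) (z ^ e)]
    exact O.valuation.map_add_le (key z hz).le (P179W.val_pow_le_one hz e)

/-- **reduction at a good prime**, with its kernel -/
theorem ex_rd {A B : ℤ} {l : ℕ} [hl : Fact l.Prime]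
    (hD : ¬ (l : ℤ) ∣ 2 * (4 * A ^ 3 + 27 * B ^ 2)) {P : Ideal (𝓞 Qb)} (hP : P.IsPrime)
    (h : (l : 𝓞 Qb) ∈ P) : ∃ (κ : Type) (_ : Field κ) (_ : IsAlgClosed κ) (_ : Algebra (ZMod l) κ)
      (rd : Pt A B →+ (Cv κ (A : ZMod l) (B : ZMod l)).Point),
      (∀ Q, K1 P Q → rd Q = 0) ∧ (∀ Q, 2 • Q = 0 → rd Q = 0 → Q = 0) ∧
      (∀ g : GQ, (∀ x : 𝓞 Qb, g • x - x ∈ P) → ∀ Q, rd (ga g Q) = rd Q) ∧
      ∀ g : GQ, (∀ x : 𝓞 Qb, g • x - x ^ l ∈ P) → ∀ Q, rd (ga g Q) = Fb (rd Q) := by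
  obtain ⟨O, hO, hI, hg⟩ := ex_val hP hl.out.ne_zero h
  let κ := AlgebraicClosure (IsLocalRing.ResidueField O)
  let ρ : O →+* κ := (algebraMap _ κ).comp (IsLocalRing.residue O)
  let r : Qb → κ := fun z => if h : z ∈ O then ρ ⟨z, h⟩ else 0
  have hr : ∀ z (h : O.valuation z ≤ 1), r z = ρ ⟨z, (O.valuation_le_one_iff z).1 h⟩ :=
    fun z h => dif_pos ((O.valuation_le_one_iff z).1 h)
  have r0 : ∀ z, O.valuation z ≤ 1 → (r z = 0 ↔ O.valuation z < 1) := by
    intro z hz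
    rw [hr z hz, RingHom.comp_apply, map_eq_zero, IsLocalRing.residue_eq_zero_iff,
      ValuationSubring.valuation_lt_one_iff]
  have vi : ∀ n : ℤ, O.valuation (n : Qb) ≤ 1 := fun n =>
    (O.valuation_le_one_iff _).2 (intCast_mem O n)
  have ri : ∀ n : ℤ, r n = n := fun n => (hr _ (vi n)).trans (map_intCast ρ n)
  have hc : CharP κ l := (CharP.charP_iff_prime_eq_zero hl.out).2 (by
    have := (r0 _ hO.le).2 hO
    rwa [← Int.cast_natCast, ri, Int.cast_natCast] at this)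
  letI : Algebra (ZMod l) κ := ZMod.algebra κ l
  have eA : algebraMap ℚ Qb (A : ℚ) = A := map_intCast _ A
  have eB : algebraMap ℚ Qb (B : ℚ) = B := map_intCast _ B
  have hΔ : O.valuation (Cv Qb (A : ℚ) (B : ℚ)).Δ = 1 := by
    have e : (Cv Qb (A : ℚ) (B : ℚ)).Δ = ((-(2 ^ 3 * (2 * (4 * A ^ 3 + 27 * B ^ 2))) : ℤ) : Qb) := by
      simp only [WeierstrassCurve.Δ, WeierstrassCurve.b₂, WeierstrassCurve.b₄, WeierstrassCurve.b₆,
        WeierstrassCurve.b₈, eA, eB]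
      push_cast
      ring
    rw [e]
    refine le_antisymm (vi _) (not_lt.1 fun h1 => ?_)
    rw [← r0 _ (vi _), ri, CharP.intCast_eq_zero_iff κ l, dvd_neg] at h1
    have hp := Nat.prime_iff_prime_int.1 hl.out
    exact hD ((hp.dvd_or_dvd h1).elim (fun h => (hp.dvd_of_dvd_pow h).mul_right _) id)
  have v0 : O.valuation (0 : Qb) ≤ 1 := by simp
  have r00 : r 0 = 0 := (r0 0 v0).2 (by simp)
  obtain ⟨hy, h3, -⟩ := P179W.ptRed_holds Qb _ O.valuation (Cv Qb (A : ℚ) (B : ℚ))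
    ⟨v0, v0, v0, (congrArg _ eA).trans_le (vi A), (congrArg _ eB).trans_le (vi B)⟩ hΔ
  obtain ⟨-, hn, hadd⟩ := h3 κ r (Cv κ (A : ZMod l) (B : ZMod l))
    (by simpa using ri 1)
    (fun a b ha hb => by rw [hr a ha, hr b hb, hr _ (O.valuation.map_add_le ha hb), ← map_add]; rfl)
    (fun a b ha hb => by rw [hr a ha, hr b hb, hr _ (P179W.val_mul_le_one ha hb), ← map_mul]; rfl)
    r0 r00.symm r00.symm r00.symm
    ((map_intCast _ A).trans ((ri A).symm.trans (congrArg r eA.symm)))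
    ((map_intCast _ B).trans ((ri B).symm.trans (congrArg r eB.symm)))
  let rd : Pt A B →+ (Cv κ (A : ZMod l) (B : ZMod l)).Point := AddMonoidHom.mk' _ hadd
  have d1 : ∀ {x y} (h : (Cv Qb (A : ℚ) (B : ℚ)).Nonsingular x y) (hx : O.valuation x ≤ 1),
      rd (.some x y h) = .some (r x) (r y) (hn x y h.1 hx) :=
    fun h hx => (if_pos hx).trans (P179W.pt_of _)
  have d2 : ∀ {x y} (h : (Cv Qb (A : ℚ) (B : ℚ)).Nonsingular x y), ¬ O.valuation x ≤ 1 →
      rd (.some x y h) = 0 := fun h hx => if_neg hx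
  have rg : ∀ (g : GQ) (e : ℕ), e ≠ 0 → (∀ x : 𝓞 Qb, g • x - x ^ e ∈ P) → ∀ z,
      O.valuation z ≤ 1 → r (g z) = r z ^ e := by
    intro g e he h4 z hz
    obtain ⟨h5, h6⟩ := hg g e he h4 z
    have h7 := (r0 _ (h6 hz).le).2 (h6 hz)
    rw [hr _ (h6 hz).le] at h7
    rw [hr _ (h5.2 hz), hr _ hz, ← map_pow, ← sub_eq_zero, ← map_sub]
    exact h7
  refine ⟨κ, inferInstance, inferInstance, inferInstance, rd, fun Q h2 => ?_, fun Q h2 h0 => ?_,
    fun g h4 Q => ?_, fun g h4 Q => ?_⟩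
  · rcases Q with _ | ⟨x, y, h'⟩
    · exact map_zero rd
    · exact d2 h' fun hx => h2 x y h' rfl (hI x hx)
  · rcases Q with _ | ⟨x, y, h'⟩
    · rfl
    obtain rfl := (two_tors two_ne_zero h').1 h2
    rw [d1 h'] at h0
    · exact absurd h0 (Point.some_ne_zero _)
    by_contra hx
    rw [not_le] at hx
    have e : x ^ 3 = -(A * x + B) := by
      have := eqn h'
      rw [eA, eB] at this
      linear_combination -this
    have h5 : O.valuation (x ^ 3) ≤ O.valuation x := by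
      rw [e, Valuation.map_neg]
      exact O.valuation.map_add_le (by simpa using P179W.val_mul_le (vi A) le_rfl)
        ((vi B).trans hx.le)
    rw [map_pow] at h5
    exact absurd (h5.trans_eq (pow_one _).symm) (not_le.2 (pow_lt_pow_right₀ hx (by norm_num)))
  · rcases Q with _ | ⟨x, y, h'⟩
    · exact congrArg rd (map_zero (ga g))
    have h5 : ∀ x : 𝓞 Qb, g • x - x ^ 1 ∈ P := by simpa using h4
    rw [ga_some]
    by_cases hx : O.valuation x ≤ 1
    · rw [d1 h' hx, d1 _ ((hg g 1 one_ne_zero h5 x).1.2 hx)]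
      simp only [rg g 1 one_ne_zero h5 x hx, rg g 1 one_ne_zero h5 y (hy x y h'.1 hx), pow_one]
    · rw [d2 h' hx, d2 _ fun h => hx ((hg g 1 one_ne_zero h5 x).1.1 h)]
  · rcases Q with _ | ⟨x, y, h'⟩
    · change rd (ga g 0) = Fb (rd 0)
      simp
    have h0 := hl.out.ne_zero
    rw [ga_some]
    by_cases hx : O.valuation x ≤ 1
    · rw [d1 h' hx, d1 _ ((hg g l h0 h4 x).1.2 hx), Fb, pa_some]
      simp only [rg g l h0 h4 x hx, rg g l h0 h4 y (hy x y h'.1 hx),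
        FiniteField.coe_frobeniusAlgHom, ZMod.card]
    · rw [d2 h' hx, d2 _ fun h => hx ((hg g l h0 h4 x).1.1 h), map_zero]

/-- transport of the kernel of reduction -/
theorem k1_ga {A B : ℤ} {P : Ideal (𝓞 Qb)} (u : GQ) {z : Pt A B}
    (h : K1 (P.comap (MulSemiringAction.toRingHom GQ (𝓞 Qb) u)) z) : K1 P (ga u z) := by
  rcases z with _ | ⟨x, y, h'⟩
  · intro a b k e
    exact absurd ((map_zero (ga u)).symm.trans e).symm (Point.some_ne_zero _)
  · intro a b k e ⟨s, t, h1, h2⟩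
    rw [ga_some] at e
    obtain ⟨rfl, -⟩ := Point.some.inj e
    refine h x y h' rfl ⟨u⁻¹ • s, u⁻¹ • t, fun h3 => h1 ?_, ?_⟩
    · simpa using Ideal.mem_comap.1 h3
    · apply u.injective
      change u (u⁻¹ (s : Qb) * x) = u (u⁻¹ (t : Qb))
      rw [map_mul, ← AlgEquiv.mul_apply, ← AlgEquiv.mul_apply, mul_inv_cancel, AlgEquiv.one_apply,
        AlgEquiv.one_apply, h2]

end Vale.Agent.P004F.Es.Rd

namespace Vale.Agent.P004F.Es

open NumberField Vale.Agent.P004M.TE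

theorem red : RED := by
  intro e l P hS ⟨hl, hP, h⟩
  haveI := Fact.mk hl
  obtain ⟨-, b2, b3⟩ := e.bad l hl hS
  have hg : ¬ (l : ℤ) ∣ 2 * (4 * e.A ^ 3 + 27 * e.B ^ 2) := fun k =>
    ((Nat.prime_iff_prime_int.1 hl).dvd_or_dvd k).elim (fun k => hS (by
      rw [(Nat.prime_dvd_prime_iff_eq hl Nat.prime_two).1 (by exact_mod_cast k)]; exact e.two)) b2
  obtain ⟨κ, _, _, _, rd, h0, h1, h2, h3⟩ := Rd.ex_rd hg hP h
  refine ⟨_, inferInstance, rd, Fb, fun k y hy hz => inj_tors h1 k hy hz, h2, h3, fun q => ?_,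
    fun φ y y' hφ hK u => ?_⟩
  · obtain ⟨g, k⟩ := P022.H20.exists_isFrob hl
    have e1 : e.a l = -cs (e.A : ZMod l) (e.B : ZMod l) := by
      have := (b3 g k).symm.trans (frob_mt (hq e.par.disc) hg k).1
      exact_mod_cast this
    have := frob_ch (char_ne hg) (disc_ne hg) q
    rw [ZMod.card] at this
    rw [e1, neg_smul, ← sub_eq_zero, ← this]
    abel
  · have k := h0 _ (Rd.k1_ga u (hK (P.comap (MulSemiringAction.toRingHom GQ (𝓞 Qb) u))
      (Ideal.comap_isPrime _ _) (by rw [Ideal.mem_comap, map_natCast]; exact h) (u⁻¹ * φ * u)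
      fun x => by simpa [Ideal.mem_comap, mul_smul, smul_sub] using hφ (u • x)))
    rw [map_sub, map_sub, sub_eq_zero, ← ga_mul, ← mul_assoc, ← mul_assoc, mul_inv_cancel, one_mul,
      ga_mul, h3 φ hφ] at k
    exact k

end Vale.Agent.P004F.Es
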