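import Vale.Agent.P004F.Es.Kum

/-! # P004F, block ES: derivative operators, norm relations -/

set_option autoImplicit false
set_option linter.all false

noncomputable section

namespace Vale.Agent.P004F.Es

open Finset

variable {G E V R W : Type} [Group G] [AddCommGroup E] [DistribMulAction G E] [CommRing R]
  [AddCommGroup V] [Module R V] [AddCommGroup W] {n : ℕ} {C A S : AddSubgroup E}
  {Γ H H' N : Subgroup G} {g h t : G} {x y : E} {f f' : AddMonoid.End E}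

variable (E) in
/-- the action as an endomorphism -/
def ge (g : G) : AddMonoid.End E := DistribSMul.toAddMonoidHom E g

variable (E) in
/-- the ring generated by `Γ` -/
def Op (Γ : Subgroup G) : Subring (AddMonoid.End E) := Subring.closure (ge E '' (Γ : Set G))

variable (E) in
/-- the fixed points -/
def Fx (N : Subgroup G) : AddSubgroup E where
  carrier := {y | ∀ h ∈ N, h • y = y}
  add_mem' a b h k := by rw [smul_add, a h k, b h k]
  zero_mem' h _ := smul_zero h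
  neg_mem' a h k := by rw [smul_neg, a h k]

theorem ge_op (hg : g ∈ Γ) : ge E g ∈ Op E Γ := Subring.subset_closure ⟨g, hg, rfl⟩

theorem op_two (hf : f ∈ Op E Γ) (T : AddSubgroup (E × E))
    (hT : ∀ g ∈ Γ, ∀ x ∈ T, (g • x.1, g • x.2) ∈ T) : ∀ x ∈ T, (f x.1, f x.2) ∈ T := by
  induction hf using Subring.closure_induction with
  | mem _ h => obtain ⟨g, hg, rfl⟩ := h; exact hT g hg
  | zero => exact fun _ _ => zero_mem T
  | one => exact fun _ h => h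
  | add _ _ _ _ a b => exact fun x h => add_mem (a x h) (b x h)
  | neg _ _ a => exact fun x h => neg_mem (a x h)
  | mul _ _ _ _ a b => exact fun x h => a _ (b x h)

theorem op_one (hf : f ∈ Op E Γ) (hS : ∀ g ∈ Γ, ∀ x ∈ S, g • x ∈ S) (hx : x ∈ S) : f x ∈ S :=
  op_two hf (S.comap (AddMonoidHom.fst E E)) (fun g hg x h => hS g hg _ h) (x, x) hx

theorem fx_smul [hN : N.Normal] (g : G) (hy : y ∈ Fx E N) : g • y ∈ Fx E N := fun h k => by
  rw [← mul_smul, ← mul_inv_cancel_left g (h * g), mul_smul, ← mul_assoc,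
    hy _ (hN.conj_mem' h k g)]

theorem fx_op [N.Normal] (hf : f ∈ Op E Γ) (hy : y ∈ Fx E N) : f y ∈ Fx E N :=
  op_one hf (fun g _ _ => fx_smul g) hy

/-- `N` contains the commutators -/
def Cm (Γ N : Subgroup G) : Prop := ∀ g ∈ Γ, ∀ h ∈ Γ, g * h * g⁻¹ * h⁻¹ ∈ N

theorem Cm.smul (c : Cm Γ N) (hg : g ∈ Γ) (hh : h ∈ Γ) (hy : y ∈ Fx E N) :
    g • h • y = h • g • y := by
  have e : g * h = h * g * (g⁻¹ * h⁻¹ * g⁻¹⁻¹ * h⁻¹⁻¹) := by group
  rw [← mul_smul, e, mul_smul, hy _ (c _ (inv_mem hg) _ (inv_mem hh)), mul_smul]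

/-- the graph of `f` over `S` -/
def gr (S : AddSubgroup E) (f : E →+ W) (f' : E →+ W) : AddSubgroup (E × E) :=
  S.comap (AddMonoidHom.fst E E) ⊓
    (f.comp (AddMonoidHom.snd E E)).eqLocus (f'.comp (AddMonoidHom.fst E E))

variable [N.Normal]

theorem Cm.op1 (c : Cm Γ N) (hf : f ∈ Op E Γ) (hg : g ∈ Γ) (hy : y ∈ Fx E N) :
    f (g • y) = g • f y :=
  (op_two hf (gr (Fx E N) (AddMonoidHom.id E) (ge E g)) (fun u hu x h => ⟨fx_smul u h.1,
    (congrArg (u • ·) h.2).trans (c.smul hu hg h.1)⟩) (y, g • y) ⟨hy, rfl⟩).2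

theorem Cm.op (c : Cm Γ N) (hf : f ∈ Op E Γ) (hf' : f' ∈ Op E Γ) (hy : y ∈ Fx E N) :
    f (f' y) = f' (f y) :=
  (op_two hf (gr (Fx E N) (AddMonoidHom.id E) f') (fun u hu x h => ⟨fx_smul u h.1,
    (congrArg (u • ·) h.2).trans (c.op1 hf' hu h.1).symm⟩) (y, f' y) ⟨hy, rfl⟩).2

theorem Cm.perm (c : Cm Γ N) {L L' : List (AddMonoid.End E)} (p : L.Perm L')
    (hL : ∀ f ∈ L, f ∈ Op E Γ) (hy : y ∈ Fx E N) : L.prod y = L'.prod y := by
  induction p with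
  | nil => rfl
  | cons a _ ih => exact congrArg a (ih fun f h => hL f (List.mem_cons_of_mem _ h))
  | swap a b L => exact c.op (hL _ (by simp)) (hL _ (by simp)) (fx_op (Subring.list_prod_mem _
      fun f h => hL f (by simp [h])) hy)
  | trans p _ a b => exact (a hL).trans (b fun f h => hL f (p.mem_iff.2 h))

/-- a relation between reductions which holds for all conjugates -/
theorem Cm.rel (c : Cm Γ N) (hf : f ∈ Op E Γ) {p q : E →+ W} (hx : x ∈ Fx E N) (hy : y ∈ Fx E N)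
    (e : ∀ u ∈ Γ, p (u • x) = q (u • y)) : ∀ u ∈ Γ, p (u • f x) = q (u • f y) := fun u hu => by
  let T : AddSubgroup (E × E) :=
    { carrier := {z | ∀ u ∈ Γ, p (u • z.1) = q (u • z.2)}
      add_mem' := fun a b u hu => by simp [smul_add, a u hu, b u hu]
      zero_mem' := fun u _ => by simp
      neg_mem' := fun a u hu => by simp [a u hu] }
  exact op_two hf T (fun g hg z h u hu => by simpa [mul_smul] using h _ (mul_mem hu hg)) (x, y) e u hu

variable (E) in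
/-- the derivative -/
def Dd (t : G) (d : ℕ) : AddMonoid.End E := ∑ i ∈ range d, i • ge E (t ^ i)

theorem Dd_apply (t : G) (d : ℕ) (y : E) : Dd E t d y = ∑ i ∈ range d, i • t ^ i • y := by
  induction d with
  | zero => rfl
  | succ d ih => rw [sum_range_succ, ← ih, Dd, sum_range_succ]; rfl

theorem Dd_op (ht : t ∈ Γ) (d : ℕ) : Dd E t d ∈ Op E Γ :=
  sum_mem fun i _ => nsmul_mem (ge_op (pow_mem ht i)) i

theorem Dd_tel {d : ℕ} (e : t ^ d • y = y) :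
    t • Dd E t d y = Dd E t d y + d • y - ∑ i ∈ range d, t ^ i • y := by
  have k : ∀ d, t • Dd E t d y = Dd E t d y + d • t ^ d • y - ∑ i ∈ range d, t ^ (i + 1) • y := by
    intro d
    induction d with
    | zero => simp [Dd_apply]
    | succ d ih =>
      rw [Dd_apply] at ih ⊢
      rw [sum_range_succ, sum_range_succ, smul_add, ih, smul_comm t d, ← mul_smul, ← pow_succ', add_smul,
        one_smul]
      abel
  have := sum_range_succ' (fun i => t ^ i • y) d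
  rw [sum_range_succ, e, pow_zero, one_smul, add_left_inj] at this
  rw [k, e, this]

theorem Dd_rd {rd : E →+ W} (h : ∀ Q, rd (t • Q) = rd Q) {d : ℕ} (hd : 2 * n ∣ d) :
    ∃ c : ℕ, ∀ y, rd (Dd E t d y) = n • rd (c • y) := by
  obtain ⟨c, rfl⟩ := hd
  have k : ∀ i y, rd (t ^ i • y) = rd y := fun i y => by
    induction i with
    | zero => simp
    | succ i ih => rw [pow_succ', mul_smul, h, ih]
  refine ⟨c * (2 * n * c - 1), fun y => ?_⟩
  rw [Dd_apply, map_sum, map_nsmul, ← mul_nsmul']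
  simp only [map_nsmul, k]
  rw [← sum_smul]
  congr 1
  exact mul_right_cancel₀ two_ne_zero ((sum_range_id_mul_two _).trans (by ring))

/-! ### the Euler system -/

variable {κ : Type} [DecidableEq κ]

/-- an Euler system modulo `n` -/
structure Sy (n : ℕ) (Γ N : Subgroup G) (M : Finset κ) (Hm : Finset κ → Subgroup G) (t : κ → G)
    (d : κ → ℕ) (a : κ → ℤ) (A : AddSubgroup E) (y : Finset κ → E) : Prop where
  cm : Cm Γ N
  nrm : ∀ m, (Hm m).Normal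
  le : ∀ m ⊆ M, N ≤ Hm m
  tm : ∀ i, t i ∈ Γ
  fix : ∀ m ⊆ M, y m ∈ Fx E (Hm m)
  t1 : ∀ m i, i ∉ m → insert i m ⊆ M → t i ^ d i ∈ Hm (insert i m)
  gen : ∀ m i, i ∉ m → insert i m ⊆ M → ∀ g ∈ Hm m, ∃ s : ℕ, g⁻¹ * t i ^ s ∈ Hm (insert i m)
  nr : ∀ m i, i ∉ m → insert i m ⊆ M →
    ∑ s ∈ range (d i), t i ^ s • y (insert i m) = a i • y m
  st : ∀ g ∈ Γ, ∀ x ∈ A, g • x ∈ A
  mem : ∀ m ⊆ M, y m ∈ A
  dd : ∀ i, 2 * n ∣ d i
  da : ∀ i, (n : ℤ) ∣ a i

variable (E) in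
/-- the product of the derivatives -/
def Dm (t : κ → G) (d : κ → ℕ) (m : Finset κ) : AddMonoid.End E :=
  (m.toList.map fun i => Dd E (t i) (d i)).prod

theorem Dm_empty (t : κ → G) (d : κ → ℕ) (y : E) : Dm E t d ∅ y = y := by
  rw [Dm, toList_empty]
  rfl

namespace Sy

variable {M : Finset κ} {Hm : Finset κ → Subgroup G} {t : κ → G} {d : κ → ℕ} {a : κ → ℤ}
  {y : Finset κ → E} (s : Sy n Γ N M Hm t d a A y) {m m' : Finset κ} {i : κ}
include s

theorem op (m : Finset κ) : Dm E t d m ∈ Op E Γ := Subring.list_prod_mem _ fun f h => by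
  obtain ⟨i, -, rfl⟩ := List.mem_map.1 h
  exact Dd_op (s.tm i) _

theorem fxN (hm : m ⊆ M) : y m ∈ Fx E N := fun h k => s.fix m hm h (s.le m hm k)

theorem ins (hi : i ∉ m) (hx : x ∈ Fx E N) :
    Dm E t d (insert i m) x = Dd E (t i) (d i) (Dm E t d m x) :=
  s.cm.perm ((toList_insert hi).map _) (fun f h => by
    obtain ⟨i, -, rfl⟩ := List.mem_map.1 h
    exact Dd_op (s.tm i) _) hx

theorem fx (m : Finset κ) (hm : m' ⊆ M) (u : G) : u • Dm E t d m (y m') ∈ Fx E (Hm m') :=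
  have := s.nrm m'
  fx_smul u (fx_op (s.op m) (s.fix m' hm))

theorem memA (m : Finset κ) (hm : m' ⊆ M) : Dm E t d m (y m') ∈ A :=
  op_one (s.op m) s.st (s.mem m' hm)

theorem tel (hi : i ∉ m) (hm : insert i m ⊆ M) : t i • Dm E t d (insert i m) (y (insert i m)) =
    Dm E t d (insert i m) (y (insert i m)) + d i • Dm E t d m (y (insert i m)) -
      a i • Dm E t d m (y m) := by
  rw [s.ins hi (s.fxN hm), Dd_tel (by simpa using s.fx m hm 1 _ (s.t1 m i hi hm)), ← map_zsmul,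
    ← s.nr m i hi hm, map_sum]
  exact congrArg _ (sum_congr rfl fun j _ =>
    (s.cm.op1 (s.op m) (pow_mem (s.tm i) j) (s.fxN hm)).symm)

theorem iv (hH : Hm ∅ ≤ Γ) (hm : m ⊆ M) : Iv n Γ (Hm ∅) A (Dm E t d m (y m)) := by
  let T : Subgroup G :=
    { carrier := {g | g ∈ Γ ∧ ∃ w ∈ A, g • Dm E t d m (y m) = Dm E t d m (y m) + n • w}
      mul_mem' := fun {g h} ⟨a, w, hw, e⟩ ⟨b, v, hv, e'⟩ => ⟨mul_mem a b, w + g • v,
        add_mem hw (s.st g a v hv), by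
          rw [mul_smul, e', smul_add, e, smul_comm g n, smul_add, add_assoc]⟩
      one_mem' := ⟨one_mem _, 0, zero_mem _, by simp⟩
      inv_mem' := fun {g} ⟨a, w, hw, e⟩ => ⟨inv_mem a, -(g⁻¹ • w), neg_mem (s.st _ (inv_mem a) w hw),
        by rw [smul_neg, ← sub_eq_add_neg, eq_sub_iff_add_eq, ← smul_comm g⁻¹ n, ← smul_add, ← e,
          inv_smul_smul]⟩ }
  have k : ∀ m' ⊆ m, Hm m' ⊓ Γ ≤ T → Hm ∅ ⊓ Γ ≤ T := fun m' => by
    induction m' using Finset.induction_on with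
    | empty => exact fun _ h => h
    | insert i m' hi ih =>
      refine fun h1 h2 => ih ((subset_insert _ _).trans h1) fun g hg => ?_
      obtain ⟨j, hj⟩ := s.gen m' i hi (h1.trans hm) g hg.1
      have h3 : t i ∈ T := by
        obtain ⟨b, e1⟩ := (dvd_mul_left n 2).trans (s.dd i)
        obtain ⟨c, e2⟩ := s.da i
        have e3 := insert_erase (h1 (mem_insert_self _ _))
        have := s.tel (notMem_erase i m) (e3.symm ▸ hm)
        rw [e3] at this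
        exact ⟨s.tm i, _, sub_mem (nsmul_mem (s.memA (m.erase i) hm) b)
          (zsmul_mem (s.memA (m.erase i) ((erase_subset i m).trans hm)) c), by
          rw [this, e1, e2, mul_nsmul', mul_smul, natCast_zsmul, smul_sub, add_sub_assoc]⟩
      exact inv_mem_iff.1 ((mul_mem_cancel_right (T.pow_mem h3 j)).1
        (h2 ⟨hj, Γ.mul_mem (Γ.inv_mem hg.2) (Γ.pow_mem (s.tm i) j)⟩))
  exact ⟨s.st, s.memA m hm, fun h hh => (k m Subset.rfl (fun g hg => ⟨hg.2, 0, zero_mem _, by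
    simpa using s.fx m hm 1 g hg.1⟩) ⟨hh, hH hh⟩).2⟩

variable {ι : E → V} {r : G → V →ₗ[R] V} {U : Finset G} {ψ : G → R} (k : Kd n C ι r)
  (fr : Fr Γ (Hm ∅) U ψ) (hA : A ≤ C) {rd : E →+ W} (inj : ∀ x, n • x = 0 → rd x = 0 → x = 0)
include k fr hA inj

theorem unr (hm : m ⊆ M) (hg : g ∈ Hm m) (h : ∀ Q, rd (g • Q) = rd Q) :
    zz C n ι U ψ (Dm E t d m (y m)) g = 0 :=
  zz_zero k fr (s.iv fr.le hm) hA fun u hu => fix_of k inj
    (hA ((s.iv fr.le hm).cj (fr.mem u hu))) (s.fx m hm u g hg) (h _)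

theorem trv (hm : m ⊆ M) (hi : i ∈ m) (hg : g ∈ Hm m)
    (h : ∀ Q, n • rd Q = 0 → rd (g • Q) = rd Q) (ht : ∀ Q, rd (t i • Q) = rd Q) :
    zz C n ι U ψ (Dm E t d m (y m)) g = 0 := by
  obtain ⟨c, hc⟩ := Dd_rd ht (s.dd i)
  refine zz_zero k fr (s.iv fr.le hm) hA fun u hu => fix_tr k inj
    (hA ((s.iv fr.le hm).cj (fr.mem u hu))) (s.fx m hm u g hg) h
    (nsmul_mem (s.fx (m.erase i) hm u) c g hg) ?_
  rw [← hc, s.cm.op1 (Dd_op (s.tm i) _) (fr.mem u hu) (fx_op (s.op _) (s.fxN hm)),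
    ← s.ins (notMem_erase i m) (s.fxN hm), insert_erase hi]

theorem fs {φ : G} {Fb : W →+ W} (hi : i ∉ m) (hm : insert i m ⊆ M) (h0 : t i ∈ Hm ∅)
    (h1 : ∀ Q, rd (t i • Q) = rd Q)
    (h2 : ∀ Q, rd (φ • Q) = Fb (rd Q)) (h3 : ∀ q, Fb (Fb q) = a i • Fb q - (d i - 1 : ℤ) • q)
    (h4 : φ * φ ∈ Hm m) (h5 : φ * φ ∈ Hm ∅)
    (h6 : ∀ u ∈ Γ, rd (u • y (insert i m)) = Fb (rd (u • y m))) :
    zz C n ι U ψ (Dm E t d (insert i m) (y (insert i m))) (t i) =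
      r φ (zz C n ι U ψ (Dm E t d m (y m)) (φ * φ)) := by
  obtain ⟨b, e1⟩ := (dvd_mul_left n 2).trans (s.dd i)
  obtain ⟨c, e2⟩ := s.da i
  have hm' := (subset_insert i m).trans hm
  rw [zz, zz, map_sum]
  refine sum_congr rfl fun u hu => ?_
  have hu := fr.mem u hu
  have m1 : ∀ m {m'}, m' ⊆ M → u • Dm E t d m (y m') ∈ C :=
    fun m m' h => hA (s.st u hu _ (s.memA m h))
  rw [map_smul, fr.mul _ (s.tm i) _ hu, fr.mul _ (fr.le h5) _ hu, fr.one _ h0, fr.one _ h5,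
    bb_fs k inj (m1 m hm') (a := c) (b := b) (m1 _ hm) (m1 m hm) h1 h2
      (by rw [← e2]; exact_mod_cast e1 ▸ h3) ?_
      (s.cm.rel (s.op m) (q := Fb.comp rd) (s.fxN hm) (s.fxN hm') h6 u hu) (s.fx m hm' u _ h4)]
  rw [s.cm.smul (s.tm i) hu (fx_op (s.op _) (s.fxN hm)), s.tel hi hm, e1, e2, smul_sub, smul_add,
    smul_comm u, smul_comm u, mul_nsmul', mul_smul, natCast_zsmul, natCast_zsmul, smul_sub,
    add_sub_assoc]

end Sy

/-! ### traces -/

variable {U U' : Finset G} {ψ ψ' : G → R}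

theorem Fr.rei (fr : Fr Γ H U ψ) {p : G → W} (hp : ∀ u ∈ Γ, ∀ h ∈ H, p (u * h) = p u) {κ : Type}
    {s : Finset κ} {v : κ → G} (hv : ∀ k ∈ s, v k ∈ Γ) (rep : ∀ g ∈ Γ, ∃! k, k ∈ s ∧ g⁻¹ * v k ∈ H) :
    ∑ k ∈ s, p (v k) = ∑ u ∈ U, p u := by
  choose! π h1 h2 using fun x hx => (fr.rep x hx).exists
  refine sum_bij (fun k _ => π (v k)) (fun k hk => h1 _ (hv k hk)) (fun k hk l hl e => ?_)
    (fun u hu => ?_) fun k hk => ?_
  · refine (rep _ (hv k hk)).unique ⟨hk, by simp⟩ ⟨hl, ?_⟩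
    simpa [e] using mul_mem (h2 _ (hv k hk)) (inv_mem (h2 _ (hv l hl)))
  · obtain ⟨k, ⟨a, b⟩, -⟩ := rep u (fr.mem u hu)
    exact ⟨k, a, (fr.rep _ (hv k a)).unique ⟨h1 _ (hv k a), h2 _ (hv k a)⟩
      ⟨hu, by simpa using inv_mem b⟩⟩
  · rw [← hp _ (hv k hk) _ (h2 _ (hv k hk)), mul_inv_cancel_left]

/-- the sum over `Γ / H'` in two steps -/
theorem Fr.two (fr : Fr Γ H U ψ) (fr' : Fr Γ H' U' ψ') (hle : H' ≤ H) {d : ℕ} (hd : 0 < d)
    (ht : t ∈ H) (h1 : ∀ i : ℕ, t ^ i ∈ H' ↔ d ∣ i) (h2 : ∀ g ∈ H, ∃ i : ℕ, g⁻¹ * t ^ i ∈ H')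
    {p : G → W} (hp : ∀ u ∈ Γ, ∀ h ∈ H', p (u * h) = p u) :
    ∑ u ∈ U', p u = ∑ u ∈ U, ∑ i ∈ range d, p (u * t ^ i) := by
  rw [← sum_product', ← fr'.rei hp (v := fun k : G × ℕ => k.1 * t ^ k.2) (s := U ×ˢ range d)
    (fun k hk => mul_mem (fr.mem _ (mem_product.1 hk).1) (fr.le (pow_mem ht _))) fun g hg => ?_]
  obtain ⟨u, ⟨a, b⟩, uq⟩ := fr.rep g hg
  obtain ⟨i, hi⟩ := h2 _ (inv_mem b)
  have k : ∀ {i j : ℕ}, g⁻¹ * (u * t ^ i) ∈ H' → i ≤ j → (g⁻¹ * (u * t ^ j) ∈ H' ↔ d ∣ j - i) :=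
    fun {i j} h l => by
      rw [← h1, ← mul_mem_cancel_left h (y := t ^ (j - i)), mul_assoc, mul_assoc, ← pow_add,
        Nat.add_sub_cancel' l]
  have e : g⁻¹ * (u * t ^ (i % d)) ∈ H' := by
    rw [inv_inv, mul_assoc, ← Nat.mod_add_div i d, pow_add, ← mul_assoc, ← mul_assoc] at hi
    exact mul_assoc g⁻¹ u _ ▸ (mul_mem_cancel_right ((h1 _).2 (dvd_mul_right _ _))).1 hi
  refine ⟨(u, i % d), ⟨mem_product.2 ⟨a, mem_range.2 (Nat.mod_lt _ hd)⟩, e⟩, ?_⟩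
  rintro ⟨v, j⟩ ⟨c, c'⟩
  obtain ⟨c1, c2⟩ := mem_product.1 c
  obtain rfl : v = u := uq v ⟨c1, (mul_mem_cancel_right (pow_mem ht j)).1
    (mul_assoc g⁻¹ v _ ▸ hle c')⟩
  have := Nat.mod_lt i hd
  rw [mem_range] at c2
  rcases le_total j (i % d) with l | l
  · exact Prod.ext rfl (by have := Nat.eq_zero_of_dvd_of_lt ((k c' l).1 e) (by omega); omega)
  · exact Prod.ext rfl (by have := Nat.eq_zero_of_dvd_of_lt ((k e l).1 c') (by omega); omega)

end Vale.Agent.P004F.Es
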