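import Vale.Agent.P004F.Es.St
import Vale.Agent.P004F.Es.Der
import Vale.Agent.P004F.Ra.Lv

/-! # P004F, block ES: row TOW (the twisted trace stays torsion up the tower) -/

set_option linter.all false

open NumberField Finset
open scoped Classical

noncomputable section

namespace Vale.Agent.P004F.Es

open Vale.Agent.P022 Vale.Agent.P004K P004M.TE
open P004T (ds)

/-- representatives for a larger subgroup -/
theorem Fr.down {G R : Type} [Group G] [CommRing R] {Γ H H' : Subgroup G} {U' : Finset G}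
    {ψ : G → R} (f : Fr Γ H' U' ψ) (h1 : H' ≤ H) (h2 : H ≤ Γ) (h3 : ∀ h ∈ H, ψ h = 1) :
    ∃ U, Fr Γ H U ψ := by
  have k : ∀ g u : G, g⁻¹ * (u : G ⧸ H).out ∈ H ↔ (g : G ⧸ H) = u := fun g u => by
    rw [← QuotientGroup.eq, QuotientGroup.out_eq']
  refine ⟨U'.image fun u : G => (u : G ⧸ H).out, h2, fun x hx => ?_, fun g hg => ?_, f.mul, h3⟩
  · obtain ⟨u, hu, rfl⟩ := mem_image.1 hx
    exact (Γ.mul_mem_cancel_left (inv_mem (f.mem u hu))).1 (h2 ((k u u).2 rfl))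
  · obtain ⟨u, ⟨hu, e⟩, -⟩ := f.rep g hg
    have e' : (g : G ⧸ H) = u := QuotientGroup.eq.2 (h1 e)
    refine ⟨_, ⟨mem_image_of_mem _ hu, (k g u).2 e'⟩, ?_⟩
    rintro _ ⟨hx, m⟩
    obtain ⟨v, -, rfl⟩ := mem_image.1 hx
    rw [← (k g v).1 m, e']

/-- **row TOW** -/
theorem tow (gns : GNS) (tyq : TYQ) (r1 : RC1) (r2 : RC2) (r3 : RC3) : TOW := by
  intro e b c
  have δ0 : 0 < e.δ := e.ok.one.le
  have s1 : ∀ {c}, 0 < c → ∀ h ∈ Hc b.j (e.δ * c), sd (ds e.δ) h = 1 := fun {c} c0 h m =>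
    Ra.sd_zero (gns e b h ((r1 _ b.j b.iq _ δ0).2.2.2.2.2 c c0 m))
  induction c using induction_on_primes with
  | zero => exact fun h => absurd h not_squarefree_zero
  | one => exact fun _ _ h T hT => by simpa using h T (by simpa using hT)
  | prime_mul l c hl ih =>
    intro sq hp ht T hT
    have c0 : 0 < c := Nat.pos_of_ne_zero fun z => sq.ne_zero (by simp [z])
    have d0 := Nat.mul_pos δ0 c0
    have hq : ∀ q : ℕ, q.Prime → q ∣ l * c → q ∉ e.S ∧ ¬ q ∣ b.δ' := fun q a d =>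
      hp q (Nat.mem_primeFactors.2 ⟨a, d, sq.ne_zero⟩)
    have hN : ∀ q : ℕ, q.Prime → q ∣ l * c → ¬ q ∣ e.N * e.δ := fun q a d =>
      (e.bad q a (hq q a d).1).1
    have cop : (e.δ * (l * c)).Coprime e.N := e.ok.cop.symm.mul_left
      (Nat.coprime_of_dvd fun q a d d' => hN q a d (d'.mul_right _))
    have cop' : (e.δ * c).Coprime e.N := cop.coprime_dvd_left ⟨l, by ring⟩
    have l1 := hN l hl (dvd_mul_right _ _)
    have l2 : ¬ l ∣ e.δ * c := fun d => ((Nat.Prime.dvd_mul hl).1 d).elim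
      (fun d => l1 (d.mul_left _)) fun d => hl.one_lt.ne'
        (Nat.isUnit_iff.1 (sq l (mul_dvd_mul_left l d)))
    have l3 : ¬ l ∣ e.δ * c * e.N := fun d => ((Nat.Prime.dvd_mul hl).1 d).elim l2
      fun d => l1 (d.mul_right _)
    obtain ⟨l4, l5⟩ := hq l hl (dvd_mul_right _ _)
    obtain ⟨n, ty⟩ := ((tyq e b).1 l hl (fun z => l4 (z ▸ e.two)) l5).1
    obtain ⟨P, P1, P2⟩ := H916.exists_prime hl
    obtain ⟨t, -, ht'⟩ := (r3 _ b.j b.iq b.upm).2 l n ty P P1 P2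
    have gn := ht' _ d0 l2
    have n0 : 0 < n := by
      have := hl.two_le
      rcases ty.2 with h | h <;> omega
    obtain ⟨-, -, -, cm, -, le⟩ := r1 _ b.j b.iq _ d0
    have e1 : e.δ * (l * c) = e.δ * c * l := by ring
    rw [e1] at hT cop ⊢
    have s2 : ∀ h ∈ Hc b.j (e.δ * c * l), sd (ds e.δ) h = 1 := fun h m => s1 c0 h (le l hl.pos m)
    have f' : Fr b.Γ (Hc b.j (e.δ * c * l)) T (sd (ds e.δ)) :=
      ⟨inf_le_left, hT.1, hT.2, fun g _ h _ => Ra.sd_mul _ g h, s2⟩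
    obtain ⟨U, f⟩ := f'.down (le l hl.pos) inf_le_left (s1 c0)
    have I := ih sq.of_mul_right (fun q m => hq q (Nat.prime_of_mem_primeFactors m)
      ((Nat.dvd_of_mem_primeFactors m).mul_left _)) ht U ⟨f.mem, f.rep⟩
    rw [f.two f' (le l hl.pos) n0 gn.1 gn.2.1 gn.2.2 fun u _ h m => by
      rw [Ra.sd_mul, s2 h m, mul_one, ga_mul, b.fx _ (Nat.mul_pos d0 hl.pos) cop h m]]
    have e2 : ∀ u ∈ U, ∑ i ∈ range n, sd (ds e.δ) (u * t ^ i) • ga (u * t ^ i) (b.Y (e.δ * c * l)) =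
        sd (ds e.δ) u • ga u (∑ i ∈ range n, ga (t ^ i) (b.Y (e.δ * c * l))) := fun u _ => by
      rw [map_sum, smul_sum]
      exact sum_congr rfl fun i _ => by
        rw [Ra.sd_mul, s1 c0 _ (pow_mem gn.1 i), mul_one, ga_mul]
    rw [sum_congr rfl e2]
    have I1 : IsOfFinAddOrder (∑ u ∈ U, sd (ds e.δ) u • ga u (e.a l • b.Y (e.δ * c))) := by
      simpa only [map_zsmul, smul_comm _ (e.a l), ← smul_sum] using I.zsmul (i := e.a l)
    have I2 : ∀ g ∈ b.Γ, IsOfFinAddOrder (∑ u ∈ U, sd (ds e.δ) u • ga u (ga g (b.Y (e.δ * c)))) :=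
      fun g hg => by
        have := (ga g).isOfFinAddOrder I
        rw [map_sum] at this
        rwa [sum_congr rfl fun u hu => ?_]
        have k := b.fx _ d0 cop' _ (cm _ (inv_mem (f.mem u hu)) _ (inv_mem hg))
        rw [map_zsmul, ← ga_mul, ← ga_mul, show u * g = g * u * (u⁻¹ * g⁻¹ * u⁻¹⁻¹ * g⁻¹⁻¹) by group,
          ga_mul (g * u), k]
    rcases ty.2 with h | ⟨⟨L, L', h1, h2, h3, h4⟩, -⟩
    · rwa [(b.ine _ l n t d0 cop' hl l3 gn h.1).1]
    · have co : ∀ L : Ideal (𝓞 b.K), (l : 𝓞 b.K) ∈ L → Cop (e.δ * c) L := fun L m =>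
        ⟨fun z => hl.ne_zero (by simpa [z] using m), by
          obtain ⟨u, v, k⟩ := (Nat.isCoprime_iff_coprime.2
            ((Nat.Prime.coprime_iff_not_dvd hl).2 l2)).map (Int.castRingHom (𝓞 b.K))
          simp only [eq_intCast, Int.cast_natCast] at k
          exact (Ideal.eq_top_iff_one _).2 (k ▸ Submodule.add_mem_sup (L.mul_mem_left _ m)
            (Ideal.mul_mem_left _ _ (Ideal.mem_span_singleton_self _)))⟩
      have m := h4.ge (Ideal.mem_span_singleton_self _)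
      obtain ⟨g, hg⟩ := (r2 _ b.j b.iq _ d0).1 L (co L (Ideal.mul_le_left m))
      obtain ⟨g', hg'⟩ := (r2 _ b.j b.iq _ d0).1 L' (co L' (Ideal.mul_le_right m))
      rw [b.spl _ l n t d0 cop' hl l3 gn L L' g g' h1 h2 h3 h4 hg hg']
      simp only [map_sub, zsmul_sub]
      rw [sum_sub_distrib, sum_sub_distrib]
      exact (AddCommGroup.torsion _).sub_mem ((AddCommGroup.torsion _).sub_mem I1 (I2 g hg.1))
        (I2 g' hg'.1)

end Vale.Agent.P004F.Es
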