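import Vale.Agent.P004F.Es.St
import Vale.Agent.P004F.Ra.Lv
import Vale.Agent.P004K.Rc.Cyc

/-! # P004F, block ES: splitting types, dihedral structure, the trace at a Kolyvagin prime -/

set_option linter.all false

open NumberField Matrix
open scoped Classical Pointwise

noncomputable section

namespace Vale.Agent.P004F.Es

open Vale.Agent.P022 Vale.Agent.P004K
open Vale.Agent.P022E.GW (Ov Fb)

/-- `1, ω` is a basis, `v ω = θ - u` with `v` prime to `q`, `θ² = -d` -/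
structure Tq.Bs {O : Type} [CommRing O] (ω θ : O) (d q : ℕ) (u v : ℤ) : Prop where
  pr : q.Prime
  ne : q ≠ 2
  nd : ¬ q ∣ d
  sp : ∀ a : O, ∃ x y : ℤ, a = x + y * ω
  ind : ∀ x y : ℤ, (x : O) + y * ω = 0 → x = 0 ∧ y = 0
  th : θ ^ 2 = -(d : O)
  eq : θ = u + v * ω

theorem Tq.dq {O : Type} [CommRing O] {a b c : O} (h : a ∣ b) (e : b = c) : a ∣ c := e ▸ h

namespace Tq.Bs

variable {O : Type} [CommRing O] {ω θ : O} {d q : ℕ} {u v : ℤ} (h : Bs ω θ d q u v)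
include h

theorem pz : Prime (q : ℤ) := Nat.prime_iff_prime_int.1 h.pr

theorem dv {x y : ℤ} (k : (q : O) ∣ x + y * ω) : (q : ℤ) ∣ x ∧ (q : ℤ) ∣ y := by
  obtain ⟨a, e⟩ := k
  obtain ⟨s, t, rfl⟩ := h.sp a
  obtain ⟨a, b⟩ := h.ind (x - q * s) (y - q * t) (by push_cast; linear_combination e)
  exact ⟨⟨s, sub_eq_zero.1 a⟩, t, sub_eq_zero.1 b⟩

theorem n2 : ¬ (q : ℤ) ∣ 2 := fun k =>
  h.ne ((Nat.prime_dvd_prime_iff_eq h.pr Nat.prime_two).1 (by exact_mod_cast k))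

theorem nv : ¬ (q : ℤ) ∣ v := fun k => by
  obtain ⟨m, t, e⟩ := h.sp (ω * ω)
  obtain ⟨a, b⟩ := h.ind (u ^ 2 + v ^ 2 * m + d) (v * (2 * u + v * t)) (by
    have := h.th
    rw [h.eq] at this
    push_cast
    linear_combination this - (v : O) ^ 2 * e)
  have d0 : 0 < d := Nat.pos_of_ne_zero fun z => h.nd (z ▸ dvd_zero q)
  rcases mul_eq_zero.1 b with z | z
  · rw [z] at a
    nlinarith [sq_nonneg u]
  · have k1 : (q : ℤ) ∣ u := (h.pz.dvd_or_dvd (a := 2) (by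
      rw [eq_neg_of_add_eq_zero_left z]; exact (k.mul_right t).neg_right)).resolve_left h.n2
    refine h.nd (Int.natCast_dvd_natCast.1 ?_)
    rw [eq_neg_of_add_eq_zero_right a]
    exact (dvd_add (dvd_pow k1 two_ne_zero) ((dvd_pow k two_ne_zero).mul_right m)).neg_right

theorem cn {n : ℤ} (k : ¬ (q : ℤ) ∣ n) {a : O} (e : (q : O) ∣ n * a) : (q : O) ∣ a := by
  have c : IsCoprime (q : O) n := by
    simpa using (h.pz.coprime_iff_not_dvd.2 k).map (Int.castRingHom O)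
  exact c.dvd_of_dvd_mul_left e

theorem inert (k : ¬ IsSquare (-d : ZMod q)) : (Ideal.span {(q : O)}).IsPrime := by
  have := Fact.mk h.pr
  refine ⟨fun e => h.pz.not_dvd_one (h.dv (y := 0) ?_).1, fun {a b} e => ?_⟩
  · simpa using Ideal.mem_span_singleton.1 ((Ideal.eq_top_iff_one _).1 e)
  simp only [Ideal.mem_span_singleton] at e ⊢
  obtain ⟨x, y, rfl⟩ := h.sp a
  have t := h.th
  have r := h.eq
  by_cases n : (q : ℤ) ∣ (v * x - u * y) ^ 2 + d * y ^ 2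
  · have n1 := (ZMod.intCast_zmod_eq_zero_iff_dvd _ _).2 n
    have y0 : (y : ZMod q) = 0 := by
      by_contra z
      refine k ⟨((v * x - u * y : ℤ) : ZMod q) / y, ?_⟩
      push_cast at n1 ⊢
      field_simp
      linear_combination -n1
    have y1 := (ZMod.intCast_zmod_eq_zero_iff_dvd _ _).1 y0
    have x1 := h.pz.dvd_of_dvd_pow ((dvd_add_left ((dvd_pow y1 two_ne_zero).mul_left d)).1 n)
    have x2 := (h.pz.dvd_or_dvd ((dvd_sub_left (y1.mul_left u)).1 x1)).resolve_left h.nv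
    exact .inl (dvd_add (by exact_mod_cast Int.cast_dvd_cast (α := O) _ _ x2)
      (Dvd.dvd.mul_right (by exact_mod_cast Int.cast_dvd_cast (α := O) _ _ y1) _))
  · refine .inr (h.cn n ?_)
    have := e.mul_left (v * ((v * x - u * y : ℤ) - y * θ))
    refine (dq this ?_)
    push_cast
    linear_combination (-(y : O) ^ 2 * b) * t - (((v : O) * x - u * y) - y * θ) * y * b * r

theorem split (k : IsSquare (-d : ZMod q)) : ∃ I I' : Ideal O, I ⊔ I' = ⊤ ∧ I ≠ ⊤ ∧ I' ≠ ⊤ ∧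
    I * I' = Ideal.span {(q : O)} := by
  obtain ⟨z, e⟩ := k
  obtain ⟨x, rfl⟩ := ZMod.intCast_surjective z
  have n : (q : ℤ) ∣ x * x + d := (ZMod.intCast_zmod_eq_zero_iff_dvd _ _).1 (by
    push_cast; linear_combination -e)
  have nx : ¬ (q : ℤ) ∣ 2 * x := fun k => h.nd (Int.natCast_dvd_natCast.1
    ((dvd_add_right (((h.pz.dvd_or_dvd k).resolve_left h.n2).mul_left x)).1 n))
  obtain ⟨s, t, c⟩ : IsCoprime (q : O) (2 * x) := by
    simpa using (h.pz.coprime_iff_not_dvd.2 nx).map (Int.castRingHom O)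
  have m1 : ∀ a : O, (q : O) ∈ Ideal.span {(q : O), a} := fun a => Ideal.subset_span (by simp)
  have m2 : ∀ a : O, a ∈ Ideal.span {(q : O), a} := fun a => Ideal.subset_span (by simp)
  have mu : Ideal.span {(q : O), θ - x} * Ideal.span {(q : O), θ + x} = Ideal.span {(q : O)} := by
    refine le_antisymm ?_ ((Ideal.span_singleton_le_iff_mem _).2 ?_)
    · rw [Ideal.span_pair_mul_span_pair, Ideal.span_le]
      rintro _ (rfl | rfl | rfl | rfl) <;> refine Ideal.mem_span_singleton.2 ?_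
      exacts [dvd_mul_right .., dvd_mul_right .., dvd_mul_left .., by
        have : (q : O) ∣ x * x + d := by exact_mod_cast Int.cast_dvd_cast (α := O) _ _ n
        exact dq this.neg_right (by linear_combination -h.th)]
    · have := add_mem (Ideal.mul_mem_left _ s (Ideal.mul_mem_mul (m1 (θ - x)) (m1 (θ + x))))
        (Ideal.mul_mem_left _ t (sub_mem (Ideal.mul_mem_mul (m1 (θ - x)) (m2 (θ + x)))
          (Ideal.mul_mem_mul (m2 (θ - x)) (m1 (θ + x)))))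
      rwa [show s * ((q : O) * q) + t * (q * (θ + x) - (θ - x) * q) = q by
        linear_combination (q : O) * c] at this
  have nt : ∀ y : ℤ, Ideal.span {(q : O), θ + y} ≠ Ideal.span {(q : O)} := fun y e => h.nv
    (h.dv (x := u + y) (dq (Ideal.mem_span_singleton.1 (e ▸ m2 (θ + y))) (by
      rw [h.eq]; push_cast; ring))).2
  refine ⟨_, _, (Ideal.eq_top_iff_one _).2 ?_, fun e => nt x ?_, fun e => nt (-x) ?_, mu⟩
  · have := add_mem (Ideal.mul_mem_left _ s (Ideal.mem_sup_left (T := Ideal.span {(q : O), θ + x})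
      (m1 (θ - x)))) (Ideal.mul_mem_left _ t (sub_mem (Ideal.mem_sup_right (m2 (θ + x)))
        (Ideal.mem_sup_left (m2 (θ - x)))))
    rwa [show s * (q : O) + t * (θ + x - (θ - x)) = 1 by linear_combination c] at this
  · rwa [e, Ideal.top_mul] at mu
  · rwa [e, Ideal.mul_top, sub_eq_add_neg, ← Int.cast_neg] at mu

end Tq.Bs

variable {e : Crv} (b : Fld e)

theorem Tq.bs {q : ℕ} (hq : q.Prime) (h2 : q ≠ 2) (hd : ¬ q ∣ b.δ') :
    ∃ ω u v, Tq.Bs ω b.θ b.δ' q u v := by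
  obtain ⟨ω, h1, h3⟩ := P004K.Rc.iq0 b.j b.iq
  obtain ⟨u, v, e⟩ := h1 b.θ
  refine ⟨ω, u, v, hq, h2, hd, h1, fun x y k => ?_, b.th, e⟩
  have y0 : y = 0 := by
    have := congrArg (fun a => (JJ b.j a).im) k
    simpa [h3.ne'] using this
  exact ⟨by simpa [y0] using k, y0⟩

/-- the square root of `-δ'` in `Qb` -/
def Tq.th : 𝓞 Qb := RingOfIntegers.mapRingHom b.j b.θ

theorem Tq.th_sq : Tq.th b ^ 2 = -(b.δ' : 𝓞 Qb) := by
  rw [Tq.th, ← map_pow, b.th, map_neg, map_natCast]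

theorem Tq.out {g : GQ} (hg : g ∉ b.Γ) : g • Tq.th b = -Tq.th b := by
  have s : (g • Tq.th b) ^ 2 = Tq.th b ^ 2 := by
    rw [← smul_pow', Tq.th_sq, smul_neg, ← MulSemiringAction.toRingHom_apply, map_natCast]
  refine (sq_eq_sq_iff_eq_or_eq_neg.1 s).resolve_left fun k => hg ?_
  have k1 : g (b.j b.θ) = b.j b.θ := congrArg (fun a : 𝓞 Qb => (a : Qb)) k
  obtain ⟨ω, h1, -⟩ := P004K.Rc.iq0 b.j b.iq
  obtain ⟨u, v, e⟩ := h1 b.θ
  have v0 : (v : Qb) ≠ 0 := by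
    rw [Int.cast_ne_zero]
    rintro rfl
    simpa [e] using b.im
  have e1 : b.j b.θ = u + v * b.j ω := by
    simpa using congrArg (fun a : 𝓞 b.K => b.j (a : b.K)) e
  have k2 : g (b.j ω) = b.j ω := by
    rw [e1, map_add, map_mul, map_intCast, map_intCast] at k1
    exact mul_left_cancel₀ v0 (add_left_cancel k1)
  have : (g : Qb →+* Qb).comp b.j = b.j :=
    IsLocalization.ringHom_ext (nonZeroDivisors (𝓞 b.K)) (RingHom.ext fun a => by
      obtain ⟨x, y, rfl⟩ := h1 a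
      simpa using .inl k2)
  exact fun x => DFunLike.congr_fun this x

theorem Tq.nsq {q : ℕ} {P : Ideal (𝓞 Qb)} {φ : GQ} (h2 : q ≠ 2) (hd : ¬ q ∣ b.δ') (ho : Ov q P)
    (hf : Fb q P φ) (hφ : φ ∉ b.Γ) : ¬ IsSquare (-b.δ' : ZMod q) := by
  rintro ⟨z, e⟩
  have := Fact.mk ho.1
  have := ho.2.1
  obtain ⟨x, rfl⟩ := ZMod.intCast_surjective z
  let π := Ideal.Quotient.mk P
  have z : ∀ a, π a = 0 ↔ a ∈ P := fun a => Ideal.Quotient.eq_zero_iff_mem
  have zi : ∀ n : ℤ, (n : ZMod q) = 0 → (n : 𝓞 Qb ⧸ P) = 0 := fun n k => by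
    obtain ⟨m, rfl⟩ := (ZMod.intCast_zmod_eq_zero_iff_dvd _ _).1 k
    rw [Int.cast_mul, Int.cast_natCast, ← map_natCast π, (z _).2 ho.2.2, zero_mul]
  have t := congrArg π (Tq.th_sq b)
  have f := (z _).2 (hf (Tq.th b))
  rw [Tq.out b hφ, map_sub, map_neg, map_pow] at f
  rw [map_pow, map_neg, map_natCast] at t
  have a1 := zi (x * x + b.δ') (by push_cast; linear_combination -e)
  have a2 := zi (x ^ q - x) (by push_cast; rw [ZMod.pow_card, sub_self])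
  push_cast at a1 a2
  have a3 : π (Tq.th b) ^ q = π (Tq.th b) := by
    rcases sq_eq_sq_iff_eq_or_eq_neg.1 (show π (Tq.th b) ^ 2 = x ^ 2 by
      linear_combination t - a1) with k | k <;> rw [k]
    · exact sub_eq_zero.1 a2
    · rw [(ho.1.odd_of_ne_two h2).neg_pow, sub_eq_zero.1 a2]
  have a4 : (q : ℤ) ∣ 2 ^ 2 * b.δ' := P004S.ov_dvd ho ((z _).1 (by
    rw [map_intCast]
    push_cast
    linear_combination 4 * t + 2 * π (Tq.th b) * (f + a3)))
  rcases ho.1.dvd_mul.1 (show q ∣ 2 ^ 2 * b.δ' by exact_mod_cast a4) with k | k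
  · exact h2 ((Nat.prime_dvd_prime_iff_eq ho.1 Nat.prime_two).1 (ho.1.dvd_of_dvd_pow k))
  · exact hd k

theorem Tq.tr {j c : ℕ} {Ψ : GQ → Rj j} (k : b.Kp j c Ψ) : (2 : ℤ) ^ (j + 1) ∣ e.a k.l := by
  have o : k.l ∉ e.S := fun m => k.out (Finset.mem_union_left _ (List.mem_toFinset.2 m))
  have a : (e.r k.φ).trace = e.a k.l :=
    (e.bad k.l k.kp.ov.1 o).2.2 k.φ ⟨k.P, k.kp.ov.2.1, k.kp.ov.2.2, k.kp.fb⟩
  have d : e.r k.φ = e.r b.c + e.r b.c * (e.r (b.c * k.φ) - 1) := by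
    rw [mul_sub, mul_one, ← map_mul, ← Ra.kp_eq k, add_sub_cancel]
  refine (PadicInt.pow_p_dvd_int_iff (p := 2) _ _).1 ?_
  rw [← a, d, trace_add, Ra.tr_conj b.cc, zero_add, Nat.cast_ofNat]
  refine Finset.dvd_sum fun i _ => ?_
  rw [diag_apply, mul_apply]
  exact Finset.dvd_sum fun i' _ => (k.tr i' i).mul_left _

/-- **TYQ** -/
theorem tyq (r1 : RC1) (r2 : RC2) : TYQ := fun e b => by
  refine ⟨fun q hq h2 hd => ?_, fun g hg c hc => ?_,
    fun l P g c ho i m hc hl => Ra.unr_hc r2 b.iq hc ho hl m i,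
    fun j c Ψ k => ⟨(pow_dvd_pow _ j.le_succ).trans (Tq.tr b k), ?_⟩⟩
  · obtain ⟨ω, u, v, h⟩ := Tq.bs b hq h2 hd
    refine ⟨?_, fun P φ ho hf m => h.inert (Tq.nsq b h2 hd ho hf m)⟩
    by_cases k : IsSquare (-b.δ' : ZMod q)
    · exact ⟨q - 1, hq, .inr ⟨h.split k, Nat.sub_add_cancel hq.one_le⟩⟩
    · exact ⟨q + 1, hq, .inl ⟨h.inert k, rfl⟩⟩
  · have a := (r1 _ _ b.iq c hc).2.2.2.2.1 _ (Ra.c_out b) _ (H20.mul_mem' b.iq.two (Ra.c_out b) hg)
    rwa [Ra.c_inv, ← mul_assoc b.c b.c, Ra.c_sq, one_mul, mul_assoc, ← mul_assoc b.c b.c, Ra.c_sq,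
      one_mul] at a
  · rw [← Ra.rj_apply j k.φ, Ra.kp_rj, Ra.rc_sq]

end Vale.Agent.P004F.Es
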