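import Vale.Agent.P004F.Es.Es
import Vale.Agent.P004F.Es.Gns
import Vale.Agent.P004F.Es.Tyq
import Vale.Agent.P004F.Es.Red
import Vale.Agent.P004F.Es.Coo
import Vale.Agent.P004F.Es.Tow
import Vale.Agent.P004F.Qx.Fg
import Vale.Agent.P004F.Qx.Fr
import Vale.Agent.P004F.Ix.Idx
import Vale.Agent.P004F.Sp.Agm

/-! # P004F, block ES: the row -/

namespace Vale.Agent.P004F.Es

open Vale.Agent.P004K

theorem es_all (r1 : RC1) (r2 : RC2) (r3 : RC3) : ES :=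
  es Qx.fg Qx.fr Ix.idx (Sp.spl Ix.idx) r1 (gns r1 r2) (tyq r1 r2) red coo
    (tow (gns r1 r2) (tyq r1 r2) r1 r2 r3) lam

end Vale.Agent.P004F.Es
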