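import Vale.Agent.P004F.Es.Two

/-! # P004F, block ES: the clauses `an` and `tor` -/

set_option linter.all false

open NumberField Matrix PowerSeries Finset
open scoped Classical

noncomputable section

namespace Vale.Agent.P004F.Es

open Vale.Agent.P022 Vale.Agent.P004K
open Vale.Agent.P022D.W (conj_inP)
open P004M.TE (Pt ga)
open P004T (ds)
open Qx (zf Fk dep)

variable {e : Crv} {b : Fld e} {j c : ℕ} {Ψ : GQ → Rj j} (h : b.Chr j c Ψ) (r1 : RC1) (ty : TYQ)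
  {F : AddSubgroup (Pt e.A e.B)} {Z : AddSubgroup Qb} (l : L2 (e.P 2) (e.S'.prod ^ 2) F Z)
include h r1

theorem At.fx (m : Finset (b.Kp j c Ψ)) :
    dep e.N e.w e.a e.S' b.φ (b.Y (cd m)) ∈ Fx (Pt e.A e.B) (Hc b.j (cd m)) :=
  haveI := hc_nrm h r1 m
  fx_op dep_op (Y_fx h m)

include ty l

theorem At.cor (m : Finset (b.Kp j c Ψ)) : dep e.N e.w e.a e.S' b.φ (b.Y (cd m)) ∈ cor F b.Γ :=
  haveI := hc_nrm h r1 m
  fun g hg => (l.mem _).2 ⟨b.qx _ (cd_pos h m) (cd_cop h m) g hg 2 two_S', fun s hs =>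
    fx_smul g (At.fx h r1 m) s (in_hc h ty m hs)⟩

variable {H : Subgroup GQ} {U U' T : Finset GQ} {R' : Type} [CommRing R'] {ψ' : GQ → R'} {d : ℕ}
  (fr : Fr b.Γ (Hc b.j (cd (∅ : Finset (b.Kp j c Ψ)))) U (ps e Ψ)) (f1 : Fr b.Γ H U' (ps e Ψ))
  (f2 : Fr H (Hc b.j (cd (∅ : Finset (b.Kp j c Ψ)))) T ψ') {e₀ : Pt e.A e.B}
  (he : Fe (2 ^ j) F (b.φ 2) d e₀) {cc : GQ → ℕ → ℤ}
  (hc : ∀ u ∈ b.Γ, Co (2 ^ j) F (b.φ 2) d e₀
    (u • ∑ v ∈ T, v • dep e.N e.w e.a e.S' b.φ (b.Y (cd (∅ : Finset (b.Kp j c Ψ))))) (cc u))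
include fr f1 f2 he hc

/-- **the clause `an`** -/
theorem an_cl (hL : LAM) : ∀ χ : GQ → ℕ,
    (∀ g ∈ b.Γ, Ψ g - mj j (1 + X) ^ χ g ∈ Ideal.span {(2 : Rj j)}) → ∀ i < j,
    b.An e.S' (e.δ * c) χ i → ∑ u ∈ U', ps e Ψ u * cc u 0 ∉ Ideal.span {2, mj j X ^ (i + 1)} := by
  intro χ hχ n hl an ht
  rw [← cd_empty (b := b) (Ψ := Ψ)] at an
  obtain ⟨i, hi, k⟩ := an U ⟨fr.mem, fr.rep⟩
  obtain ⟨lam, l1, l2⟩ := hL j n i hi hl
  have fx := At.fx h r1 ∅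
  have m := At.cor h r1 ty l ∅
  have t := theta f1 (Iv.tr ⟨cor_st, m, fun g hg => ⟨0, zero_mem _, by simpa using fx g hg⟩⟩ f2 f1.le)
    cor_le he (ph_mem b) (hn j) hc (dvd_pow_self 2 (by omega)) l.ad l.two
    fun s => l1 _ (Ideal.mul_mem_left _ s ht)
  rw [← tr_sum (θ := fun u => (lam (ps e Ψ u)).val) fr f1 f2 m l.ad
    (fun u _ g hg => by rw [mul_smul, fx g hg]) fun u hu g hg => by rw [f1.psi hu hg]] at t
  refine k ((l.z _).1 ((QuotientAddGroup.eq_zero_iff _).1 (Eq.trans ?_ t)))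
  refine (map_sum (QuotientAddGroup.mk' Z) _ _).trans (sum_congr rfl fun u hu => ?_)
  have q : lam (ps e Ψ u) = (χ u).choose i := by
    rw [← l2, ← sub_eq_zero, ← map_sub]
    refine l1 _ (Ideal.span_mono (Set.singleton_subset_iff.2 (Set.mem_insert _ _)) ?_)
    rw [ps, sd]
    split_ifs
    · simpa using hχ u (fr.mem u hu)
    · convert sub_mem (hχ u (fr.mem u hu))
        (Ideal.mul_mem_right (Ψ u) _ (Ideal.mem_span_singleton_self 2)) using 1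
      push_cast
      ring
  rw [q, ZMod.val_natCast, ← nsmul_eq_mul, map_nsmul]
  nth_rewrite 1 [← Nat.mod_add_div ((χ u).choose i) 2]
  rw [add_smul, mul_comm, mul_smul]
  exact (congrArg (_ + _ • ·) (l.two _ (m u (fr.mem u hu)))).trans (by rw [smul_zero, add_zero]; rfl)

/-- **the clause `tor`** -/
theorem tor_cl (hT : TOW) (hσ : ∀ g ∈ H, sd (ds e.δ) g = 1) :
    (∀ g ∈ b.Γ, Ψ g - 1 ∈ Ideal.span {mj j X}) → b.Tor →
    ∑ u ∈ U', ps e Ψ u * cc u 0 ∈ Ideal.span {mj j X} := by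
  intro h1 tor
  have := hc_nrm h r1 ∅
  have m := At.cor h r1 ty l ∅
  have t := tr_sum (β := id) (θ := sd (ds e.δ)) fr f1 f2 m
    (fun _ _ _ _ => rfl) (fun u _ g hg => by rw [mul_smul, At.fx h r1 ∅ g hg])
    fun u _ g hg => by rw [Ra.sd_mul, hσ g hg, mul_one]
  simp only [id] at t
  have z := tor_abs (R := Rj j) he (hn j) l.tf
    (t ▸ sum_mem fun u hu => zsmul_mem (m u (fr.mem u hu)) _)
    (Co.sum fun u hu => (hc u (f1.mem u hu)).zsmul (sd (ds e.δ) u)) (by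
      rw [← t, ← sum_congr rfl fun u hu => congrArg (sd (ds e.δ) u • ·)
        (Cm.op1 (r1 _ b.j b.iq _ (cd_pos h ∅)).2.2.2.1 dep_op (fr.mem u hu) (Y_fx h ∅))]
      simp only [← map_zsmul, ← map_sum]
      rw [cd_empty] at fr ⊢
      exact AddMonoidHom.isOfFinAddOrder _ (hT e b c h.sq h.cop tor U ⟨fr.mem, fr.rep⟩))
  rw [← sub_zero (∑ u ∈ U', _), ← z, Finset.sum_apply, Int.cast_sum, ← sum_sub_distrib]
  refine sum_mem fun u hu => ?_
  rw [Pi.smul_apply, smul_eq_mul, Int.cast_mul, ← sub_mul, ps, ← sub_one_mul]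
  exact Ideal.mul_mem_right _ _ (Ideal.mul_mem_right _ _ (h1 u (f1.mem u hu)))

end Vale.Agent.P004F.Es
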