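import Mathlib

/-! # P004F, block ES: the Kummer cocycle of a point which is invariant modulo `n` -/

set_option autoImplicit false
set_option linter.all false

noncomputable section

namespace Vale.Agent.P004F.Es

open Finset

variable {G E V R W : Type} [Group G] [AddCommGroup E] [DistribMulAction G E] [CommRing R]
  [AddCommGroup V] [Module R V] [AddCommGroup W] {n : ℕ} {C A F S : AddSubgroup E}

/-- additive on `S` -/
def Ad (S : AddSubgroup E) (f : E → W) : Prop := ∀ x ∈ S, ∀ y ∈ S, f (x + y) = f x + f y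

namespace Ad

variable {f : E → W} (h : Ad S f) {x y : E}
include h

/-- the homomorphism -/
def hom : S →+ W := AddMonoidHom.mk' (fun x => f x) fun x y => h _ x.2 _ y.2

theorem zero : f 0 = 0 := map_zero h.hom

theorem sub (hx : x ∈ S) (hy : y ∈ S) : f (x - y) = f x - f y := map_sub h.hom ⟨x, hx⟩ ⟨y, hy⟩

theorem zsmul (hx : x ∈ S) (k : ℤ) : f (k • x) = k • f x := map_zsmul h.hom k ⟨x, hx⟩

theorem sum {ι : Type} (s : Finset ι) {y : ι → E} (hy : ∀ i, y i ∈ S) :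
    f (∑ i ∈ s, y i) = ∑ i ∈ s, f (y i) := by
  have := map_sum h.hom (fun i => ⟨y i, hy i⟩) s
  rwa [hom, AddMonoidHom.mk'_apply, AddSubgroup.val_finset_sum] at this

end Ad

/-- uniquely divisible by `n` -/
def Ud (n : ℕ) (C : AddSubgroup E) : Prop :=
  (∀ y ∈ C, n • y = 0 → y = 0) ∧ ∀ y ∈ C, ∃ w ∈ C, n • w = y

theorem Ud.pow (h : Ud n C) (k : ℕ) : Ud (n ^ k) C := by
  induction k with
  | zero => exact ⟨fun y _ e => by simpa using e, fun y hy => ⟨y, hy, by simp⟩⟩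
  | succ k ih =>
    refine ⟨fun y hy e => h.1 y hy (ih.1 _ (nsmul_mem hy n) (by rwa [← mul_nsmul', ← pow_succ])),
      fun y hy => ?_⟩
    obtain ⟨w, hw, rfl⟩ := ih.2 y hy
    obtain ⟨v, hv, rfl⟩ := h.2 w hw
    exact ⟨v, hv, by rw [pow_succ, mul_nsmul']⟩

theorem ex_ud (hd : ∀ y : E, ∃ w, 2 • w = y) (hF : ∀ y ∈ F, 2 • y = 0 → y = 0) :
    ∃ C, F ≤ C ∧ Ud 2 C := by
  obtain ⟨C, h1, h2⟩ := zorn_le_nonempty₀ {C : AddSubgroup E | ∀ y ∈ C, 2 • y = 0 → y = 0}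
    (fun c hc ch y hy => ⟨sSup c, fun x hx => by
      obtain ⟨s, hs, k⟩ := (AddSubgroup.mem_sSup_of_directedOn ⟨y, hy⟩ ch.directedOn).1 hx
      exact hc hs x k, fun z hz => le_sSup hz⟩) F hF
  refine ⟨C, h1, h2.prop, fun y hy => ?_⟩
  obtain ⟨Q, rfl⟩ := hd y
  by_contra! k
  refine k Q (h2.le_of_ge (y := C ⊔ AddSubgroup.zmultiples Q) (fun x hx e => ?_) le_sup_left
    (AddSubgroup.mem_sup_right (AddSubgroup.mem_zmultiples Q))) rfl
  obtain ⟨c, hc, _, ⟨m, rfl⟩, rfl⟩ := AddSubgroup.mem_sup.1 hx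
  have h3 : ∀ a : ℤ, c + (2 * a) • Q ∈ C := fun a => add_mem hc (by
    rw [mul_comm, mul_smul, two_zsmul, ← two_nsmul]; exact zsmul_mem hy a)
  rcases Int.even_or_odd' m with ⟨a, rfl | rfl⟩
  · exact h2.prop _ (h3 a) e
  · refine absurd ?_ (k _ (neg_mem (h3 a)))
    rw [← sub_eq_zero, ← neg_eq_zero, ← e]
    simp only [add_smul, one_smul, smul_neg, smul_add]
    abel

open Classical in
/-- division by `n` in `C` -/
def dv (C : AddSubgroup E) (n : ℕ) (y : E) : E := if h : ∃ w ∈ C, n • w = y then h.choose else 0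

namespace Ud

variable (h : Ud n C) {x y w : E}
include h

theorem mem (hy : y ∈ C) : dv C n y ∈ C := by
  rw [dv, dif_pos (h.2 y hy)]
  exact (h.2 y hy).choose_spec.1

theorem mul (hy : y ∈ C) : n • dv C n y = y := by
  rw [dv, dif_pos (h.2 y hy)]
  exact (h.2 y hy).choose_spec.2

theorem eq (hw : w ∈ C) (e : n • w = y) : dv C n y = w :=
  have hy := e ▸ nsmul_mem hw n
  sub_eq_zero.1 (h.1 _ (sub_mem (h.mem hy) hw) (by rw [smul_sub, h.mul hy, e, sub_self]))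

theorem ad : Ad C (dv C n) := fun x hx y hy =>
  h.eq (add_mem (h.mem hx) (h.mem hy)) (by rw [smul_add, h.mul hx, h.mul hy])

theorem add (hy : y ∈ C) (hw : w ∈ C) : dv C n (y + n • w) = dv C n y + w :=
  h.eq (add_mem (h.mem hy) hw) (by rw [smul_add, h.mul hy])

end Ud

/-- the elements killed by `n` -/
def tn (E : Type) [AddCommGroup E] (n : ℕ) : AddSubgroup E := (nsmulAddMonoidHom n).ker

theorem mem_tn {x : E} : x ∈ tn E n ↔ n • x = 0 := Iff.rfl

/-- coordinates on the points of order `n` -/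
structure Kd (n : ℕ) (C : AddSubgroup E) (ι : E → V) (r : G → V →ₗ[R] V) : Prop where
  ud : Ud n C
  add : Ad (tn E n) ι
  eqv : ∀ g x, n • x = 0 → ι (g • x) = r g (ι x)

/-- the Kummer cocycle -/
def bb (C : AddSubgroup E) (n : ℕ) (ι : E → V) (g : G) (y : E) : V :=
  ι (g • dv C n y - dv C n (g • y))

variable {ι : E → V} {r : G → V →ₗ[R] V} {g h φ : G} {x y w X : E}

theorem Ud.tors (h : Ud n C) (hy : y ∈ C) (hg : g • y ∈ C) :
    n • (g • dv C n y - dv C n (g • y)) = 0 := by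
  rw [smul_sub, smul_comm, h.mul hy, h.mul hg, sub_self]

namespace Kd

variable (k : Kd n C ι r)
include k

theorem ad (hF : F ≤ C) (hg : ∀ y ∈ F, g • y ∈ F) : Ad F (bb C n ι g) := fun x hx y hy => by
  rw [bb, bb, bb, ← k.add _ (k.ud.tors (hF hx) (hF (hg x hx))) _ (k.ud.tors (hF hy) (hF (hg y hy))),
    smul_add, k.ud.ad _ (hF hx) _ (hF hy), k.ud.ad _ (hF (hg x hx)) _ (hF (hg y hy)), smul_add]
  congr 1
  abel

theorem inv (hy : y ∈ C) (h1 : g • y ∈ C) (hw : w ∈ C) (h2 : g • w ∈ C) :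
    bb C n ι g (y + n • w) = bb C n ι g y := by
  rw [bb, bb, smul_add, smul_comm, k.ud.add hy hw, k.ud.add h1 h2, smul_add, add_sub_add_right_eq_sub]

theorem mul (hy : y ∈ C) (h1 : h • y ∈ C) (h2 : g • h • y ∈ C) :
    bb C n ι (g * h) y = bb C n ι g (h • y) + r g (bb C n ι h y) := by
  have t := k.ud.tors hy h1
  rw [bb, bb, bb, ← k.eqv _ _ t, ← k.add _ (k.ud.tors h1 h2) _ (by
    rw [mem_tn, smul_comm, t, smul_zero]), mul_smul, mul_smul, smul_sub]
  congr 1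
  abel

theorem zero (hy : y ∈ C) (e : g • dv C n y = dv C n y) : bb C n ι g y = 0 := by
  have : g • y = y := by rw [← k.ud.mul hy, smul_comm, e]
  rw [bb, this, e, sub_self, k.add.zero]

end Kd

/-- representatives of `Γ / H`, a character of `Γ / H`, a stable group of points -/
structure Fr (Γ H : Subgroup G) (U : Finset G) (ψ : G → R) : Prop where
  le : H ≤ Γ
  mem : ∀ u ∈ U, u ∈ Γ
  rep : ∀ g ∈ Γ, ∃! u, u ∈ U ∧ g⁻¹ * u ∈ H
  mul : ∀ g ∈ Γ, ∀ h ∈ Γ, ψ (g * h) = ψ g * ψ h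
  one : ∀ h ∈ H, ψ h = 1

variable {Γ H D : Subgroup G} {U : Finset G} {ψ : G → R}

theorem Fr.sum (f : Fr Γ H U ψ) {p : G → W} (hp : ∀ u ∈ Γ, ∀ h ∈ H, p (u * h) = p u) (hg : g ∈ Γ) :
    ∑ u ∈ U, p (g * u) = ∑ u ∈ U, p u := by
  choose! π h1 h2 using fun x hx => (f.rep x hx).exists
  have k : ∀ g ∈ Γ, ∀ u ∈ U, π (g⁻¹ * π (g * u)) = u := fun g hg u hu => by
    have a := mul_mem hg (f.mem u hu)
    have b := mul_mem (inv_mem hg) (f.mem _ (h1 _ a))
    refine (f.rep _ b).unique ⟨h1 _ b, h2 _ b⟩ ⟨hu, ?_⟩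
    simpa [mul_assoc] using inv_mem (h2 _ a)
  refine sum_nbij' (fun u => π (g * u)) (fun u => π (g⁻¹ * u))
    (fun u hu => h1 _ (mul_mem hg (f.mem u hu))) (fun u hu => h1 _ (mul_mem (inv_mem hg) (f.mem u hu)))
    (k g hg) (fun u hu => by simpa using k _ (inv_mem hg) u hu) fun u hu => ?_
  have a := mul_mem hg (f.mem u hu)
  rw [← hp _ a _ (h2 _ a), mul_inv_cancel_left]

theorem Fr.psi (f : Fr Γ H U ψ) (hg : g ∈ Γ) (hh : h ∈ H) : ψ (g * h) = ψ g := by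
  rw [f.mul _ hg _ (f.le hh), f.one _ hh, mul_one]

/-- `X` is invariant modulo `n` -/
structure Iv (n : ℕ) (Γ H : Subgroup G) (A : AddSubgroup E) (X : E) : Prop where
  st : ∀ g ∈ Γ, ∀ y ∈ A, g • y ∈ A
  mem : X ∈ A
  inv : ∀ h ∈ H, ∃ w ∈ A, h • X = X + n • w

theorem Iv.cj (i : Iv n Γ H A X) (hg : g ∈ Γ) : g • X ∈ A := i.st g hg X i.mem

theorem Iv.eq (i : Iv n Γ H A X) (hg : g ∈ Γ) (hh : h ∈ H) :
    ∃ w ∈ A, (g * h) • X = g • X + n • w :=
  let ⟨w, hw, e⟩ := i.inv h hh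
  ⟨g • w, i.st g hg w hw, by rw [mul_smul, e, smul_add, smul_comm]⟩

/-- the class -/
def zz (C : AddSubgroup E) (n : ℕ) (ι : E → V) (U : Finset G) (ψ : G → R) (X : E) (g : G) : V :=
  ∑ u ∈ U, ψ (g * u) • bb C n ι g (u • X)

section

variable (k : Kd n C ι r) (f : Fr Γ H U ψ) (i : Iv n Γ H A X) (hA : A ≤ C)
include k f i hA

theorem zz_mul (hg : g ∈ Γ) (hh : h ∈ Γ) :
    zz C n ι U ψ X (g * h) = zz C n ι U ψ X g + ψ g • r g (zz C n ι U ψ X h) := by
  rw [zz, zz, zz, ← f.sum (p := fun u => ψ (g * u) • bb C n ι g (u • X)) (fun u hu x hx => ?_) hh,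
    map_sum, smul_sum, ← sum_add_distrib]
  · refine sum_congr rfl fun u hu => ?_
    have a := i.cj (f.mem u hu)
    rw [k.mul (hA a) (hA (i.st h hh _ a)) (hA (i.st g hg _ (i.st h hh _ a))), smul_add, map_smul,
      smul_smul (ψ g), ← f.mul g hg _ (mul_mem hh (f.mem u hu)), mul_assoc, mul_smul]
  · obtain ⟨w, hw, e⟩ := i.eq hu hx
    rw [e, k.inv (hA (i.cj hu)) (hA (i.st g hg _ (i.cj hu))) (hA hw) (hA (i.st g hg w hw)),
      ← mul_assoc, f.psi (mul_mem hg hu) hx]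

theorem zz_zero (e : ∀ u ∈ U, g • dv C n (u • X) = dv C n (u • X)) : zz C n ι U ψ X g = 0 :=
  sum_eq_zero fun u hu => by rw [k.zero (hA (i.cj (f.mem u hu))) (e u hu), smul_zero]

/-- strict places -/
theorem zz_str (hS : Ud n S) (h1 : A ≤ S) : ∃ μ, ∀ g ∈ Γ, (∀ y ∈ S, g • y ∈ S) →
    zz C n ι U ψ X g = ψ g • r g μ - μ := by
  let m : E → V := fun y => ι (dv C n y - dv S n y)
  have t : ∀ y ∈ A, n • (dv C n y - dv S n y) = 0 := fun y hy => by
    rw [smul_sub, k.ud.mul (hA hy), hS.mul (h1 hy), sub_self]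
  refine ⟨∑ u ∈ U, ψ u • m (u • X), fun g hg st => ?_⟩
  nth_rewrite 2 [← f.sum (p := fun u => ψ u • m (u • X)) (fun u hu x hx => ?_) hg]
  · rw [zz, map_sum, smul_sum, ← sum_sub_distrib]
    refine sum_congr rfl fun u hu => ?_
    have a := i.cj (f.mem u hu)
    have b := i.st g hg _ a
    rw [map_smul, smul_smul, ← f.mul g hg _ (f.mem u hu), ← smul_sub, mul_smul, ← k.eqv _ _ (t _ a),
      ← k.add.sub (by rw [mem_tn, smul_comm, t _ a, smul_zero]) (t _ b), bb,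
      hS.eq (st _ (hS.mem (h1 a))) (y := g • u • X) (by rw [smul_comm, hS.mul (h1 a)]), smul_sub]
    congr 2
    abel
  · obtain ⟨w, hw, e⟩ := i.eq hu hx
    simp only [m]
    rw [e, k.ud.add (hA (i.cj hu)) (hA hw), hS.add (h1 (i.cj hu)) (h1 hw), f.psi hu hx,
      add_sub_add_right_eq_sub]

end

/-! ### the place above two -/

/-- `e` is a free generator modulo `n F` -/
structure Fe (n : ℕ) (F : AddSubgroup E) (φ : G) (d : ℕ) (e : E) : Prop where
  pos : 0 < d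
  st : ∀ y ∈ F, φ • y ∈ F
  mem : e ∈ F
  fix : φ ^ d • e = e
  ind : ∀ (a : ℕ → ℤ), ∀ w ∈ F, ∑ i ∈ range d, a i • φ ^ i • e = n • w → ∀ i < d, (n : ℤ) ∣ a i

/-- coordinates -/
def Co (n : ℕ) (F : AddSubgroup E) (φ : G) (d : ℕ) (e y : E) (a : ℕ → ℤ) : Prop :=
  ∃ w ∈ F, y = ∑ i ∈ range d, a i • φ ^ i • e + n • w

/-- the local cocycle -/
def eps (C : AddSubgroup E) (n : ℕ) (ι : E → V) (ψ : G → R) (φ : G) (d : ℕ) (e : E) (g : G) : V :=
  ∑ i ∈ range d, ψ (g * φ ^ i) • bb C n ι g (φ ^ i • e)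

variable {d : ℕ} {e : E} {a a' : ℕ → ℤ}

theorem Fe.pw (h : Fe n F φ d e) (i : ℕ) : φ ^ i • e ∈ F := by
  induction i with
  | zero => simpa using h.mem
  | succ i ih => rw [pow_succ', mul_smul]; exact h.st _ ih

theorem Co.add (c : Co n F φ d e y a) (hw : w ∈ F) : Co n F φ d e (y + n • w) a :=
  let ⟨v, hv, e⟩ := c
  ⟨v + w, add_mem hv hw, by rw [e, smul_add, add_assoc]⟩

theorem Fe.uniq (h : Fe n F φ d e) (hn : (n : R) = 0) (c : Co n F φ d e y a)
    (c' : Co n F φ d e y a') {i : ℕ} (hi : i < d) : (a i : R) = a' i := by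
  obtain ⟨w, hw, e1⟩ := c
  obtain ⟨w', hw', e2⟩ := c'
  obtain ⟨t, ht⟩ := h.ind (a - a') _ (sub_mem hw' hw) (by
    simp only [Pi.sub_apply, sub_smul, sum_sub_distrib, smul_sub]
    rw [sub_eq_sub_iff_add_eq_add, ← e1, add_comm, ← e2]) i hi
  rw [← sub_eq_zero, ← Int.cast_sub, ← Pi.sub_apply, ht, Int.cast_mul, Int.cast_natCast, hn,
    zero_mul]

theorem Fe.step (h : Fe n F φ d e) (c : Co n F φ d e y a) :
    Co n F φ d e (φ • y) fun i => if i = 0 then a (d - 1) else a (i - 1) := by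
  obtain ⟨w, hw, rfl⟩ := c
  obtain ⟨d, rfl⟩ := Nat.exists_eq_succ_of_ne_zero h.pos.ne'
  refine ⟨φ • w, h.st w hw, ?_⟩
  rw [smul_add, smul_comm, smul_sum, sum_range_succ, sum_range_succ', smul_comm φ, ← mul_smul,
    ← pow_succ', h.fix]
  simp [smul_comm φ, ← mul_smul, ← pow_succ']

section

variable (f : Fr Γ H U ψ) (i : Iv n Γ H A X) (hA : A ≤ F) (he : Fe n F φ d e) (hφ : φ ∈ Γ)
  (hn : (n : R) = 0) {c : G → ℕ → ℤ} (hc : ∀ u ∈ Γ, Co n F φ d e (u • X) (c u))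
include f i hA he hφ hn hc

theorem co_sum {j : ℕ} (hj : j < d) :
    ∑ u ∈ U, ψ u * c u j = ψ (φ ^ j) * ∑ u ∈ U, ψ u * c u 0 := by
  induction j with
  | zero => rw [pow_zero, f.one 1 (one_mem H), one_mul]
  | succ j ih =>
    rw [pow_succ', f.mul _ hφ _ (pow_mem hφ j), mul_assoc, ← ih (by omega), mul_sum,
      ← f.sum (p := fun u => ψ u * c u (j + 1)) (fun u hu x hx => ?_) hφ]
    · refine sum_congr rfl fun u hu => ?_
      have := he.uniq hn (hc _ (mul_mem hφ (f.mem u hu)))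
        (mul_smul φ u X ▸ he.step (hc u (f.mem u hu))) hj
      rw [f.mul _ hφ _ (f.mem u hu), this, mul_assoc]
      simp
    · obtain ⟨w, hw, e⟩ := i.eq hu hx
      rw [f.psi hu hx, he.uniq hn (hc _ (mul_mem hu (f.le hx))) (e ▸ (hc u hu).add (hA hw)) hj]

/-- the place above two -/
theorem zz_two (k : Kd n C ι r) (hF : F ≤ C) (hg : g ∈ Γ) (st : ∀ y ∈ F, g • y ∈ F) :
    zz C n ι U ψ X g = (∑ u ∈ U, ψ u * c u 0) • eps C n ι ψ φ d e g := by
  have : ∀ u ∈ U, ψ (g * u) • bb C n ι g (u • X) =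
      ∑ j ∈ range d, (ψ g * (ψ u * c u j)) • bb C n ι g (φ ^ j • e) := fun u hu => by
    obtain ⟨w, hw, e1⟩ := hc u (f.mem u hu)
    have m := sum_mem (t := range d) fun j _ => zsmul_mem (he.pw j) (c u j)
    rw [e1, k.inv (hF m) (hF (st _ m)) (hF hw) (hF (st w hw)),
      (k.ad hF st).sum _ fun j => zsmul_mem (he.pw j) _, smul_sum]
    refine sum_congr rfl fun j _ => ?_
    rw [(k.ad hF st).zsmul (he.pw j), ← Int.cast_smul_eq_zsmul R, smul_smul,
      f.mul g hg _ (f.mem u hu), mul_assoc]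
  rw [zz, sum_congr rfl this, sum_comm, eps, smul_sum]
  refine sum_congr rfl fun j hj => ?_
  rw [← sum_smul, ← mul_sum, co_sum f i hA he hφ hn hc (mem_range.1 hj), smul_smul,
    f.mul g hg _ (pow_mem hφ j)]
  congr 1
  ring

end

/-- the local cocycle relation -/
theorem eps_mul (k : Kd n C ι r) (f : Fr Γ H U ψ) (hF : F ≤ C) (he : Fe n F φ d e) (hφ : φ ∈ Γ)
    (hd : φ ^ d ∈ H) (hg : g ∈ Γ) (st : ∀ y ∈ F, g • y ∈ F) (hh : h ∈ Γ) {s : ℕ}
    (h1 : ψ h = ψ (φ ^ s)) (h2 : ∀ i, h • φ ^ i • e = φ ^ s • φ ^ i • e) :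
    eps C n ι ψ φ d e (g * h) = eps C n ι ψ φ d e g + ψ g • r g (eps C n ι ψ φ d e h) := by
  let p : ℕ → V := fun i => ψ (g * φ ^ i) • bb C n ι g (φ ^ i • e)
  have a : ∀ s, ∑ i ∈ range d, p (s + i) = ∑ i ∈ range d, p i := fun s => by
    induction s with
    | zero => simp
    | succ s ih =>
      have b : p (s + d) = p s := by
        simp only [p]
        rw [pow_add, mul_smul, he.fix, ← mul_assoc, f.psi (mul_mem hg (pow_mem hφ s)) hd]
      have := sum_range_succ' (fun i => p (s + i)) d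
      rw [sum_range_succ, b, add_zero, add_left_inj, ih] at this
      rw [this]
      exact sum_congr rfl fun i _ => by rw [add_assoc, add_comm 1]
  rw [eps, eps, eps, ← a s, map_sum, smul_sum, ← sum_add_distrib]
  refine sum_congr rfl fun i _ => ?_
  have b : h • φ ^ i • e = φ ^ (s + i) • e := by rw [h2, pow_add, mul_smul]
  have c : ψ (g * h * φ ^ i) = ψ g * ψ (h * φ ^ i) := by
    rw [mul_assoc, f.mul g hg _ (mul_mem hh (pow_mem hφ i))]
  rw [k.mul (hF (he.pw i)) (hF (b ▸ he.pw _)) (hF (st _ (b ▸ he.pw _))), smul_add, map_smul,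
    smul_smul (ψ g), ← c, b, c, f.mul h hh _ (pow_mem hφ i), h1, ← f.mul _ (pow_mem hφ s) _ (pow_mem hφ i),
    ← pow_add, ← f.mul g hg _ (pow_mem hφ _)]

/-! ### good places -/

section

variable (k : Kd n C ι r) {rd : E →+ W} (inj : ∀ x, n • x = 0 → rd x = 0 → x = 0) (hy : y ∈ C)
include k inj hy

theorem fix_of (e : g • y = y) (h1 : rd (g • dv C n y) = rd (dv C n y)) :
    g • dv C n y = dv C n y :=
  sub_eq_zero.1 (inj _ (by rw [smul_sub, smul_comm, k.ud.mul hy, e, sub_self])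
    (by rw [map_sub, h1, sub_self]))

theorem fix_tr (e : g • y = y) (h1 : ∀ Q, n • rd Q = 0 → rd (g • Q) = rd Q) (hw : g • w = w)
    (h2 : rd y = n • rd w) : g • dv C n y = dv C n y := fix_of k inj hy e (by
  have := h1 (dv C n y - w) (by rw [map_sub, smul_sub, ← map_nsmul, k.ud.mul hy, h2, sub_self])
  rwa [smul_sub, hw, map_sub, map_sub, sub_left_inj] at this)

/-- the finite-singular relation -/
theorem bb_fs {t : G} {Fb : W →+ W} {y' : E} {a b : ℤ} (hy' : y' ∈ C) (hw : w ∈ C)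
    (h1 : ∀ Q, rd (t • Q) = rd Q) (h2 : ∀ Q, rd (φ • Q) = Fb (rd Q))
    (h3 : ∀ q, Fb (Fb q) = (n * a) • Fb q - (n * b - 1) • q)
    (e1 : t • y' = y' + n • (b • w - a • y)) (e2 : rd w = Fb (rd y)) (e3 : (φ * φ) • y = y) :
    bb C n ι t y' = r φ (bb C n ι (φ * φ) y) := by
  have m := sub_mem (zsmul_mem hw b) (zsmul_mem hy a)
  have t1 := k.ud.tors hy' (g := t) (e1 ▸ add_mem hy' (nsmul_mem m n))
  have t2 := k.ud.tors hy (g := φ * φ) (e3.symm ▸ hy)
  rw [bb, bb, ← k.eqv _ _ t2]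
  refine congrArg ι (sub_eq_zero.1 (inj _ (by rw [smul_sub, t1, smul_comm, t2]; simp) ?_))
  have e4 := congrArg rd t2
  rw [map_nsmul, map_zero, e3, map_sub, mul_smul, h2, h2] at e4
  rw [map_sub, h2, e3, map_sub, map_sub, h1, e1, k.ud.add hy' m, mul_smul, h2, h2, map_add, map_sub,
    map_zsmul, map_zsmul, e2, ← k.ud.mul hy, map_nsmul, map_nsmul, k.ud.mul hy]
  generalize rd (dv C n y) = q at e4 ⊢
  have e5 := congrArg Fb (h3 q)
  rw [map_sub, map_zsmul, map_zsmul] at e5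
  rw [map_sub]
  linear_combination (norm := module) -e5 - a • e4

end

end Vale.Agent.P004F.Es
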