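import Vale.Agent.P004F.St

/-! # P004F, block ES: the arithmetic rows -/

set_option linter.all false

open NumberField Matrix PowerSeries
open scoped Classical Pointwise

noncomputable section

namespace Vale.Agent.P004F.Es

open Vale.Agent.P022 Vale.Agent.P004K
open Vale.Agent.P027M.S (Inert)
open Vale.Agent.P022E.GW (Ov Fb)
open P004M.TE (Pt ga)
open P004S (nu)
open P004T (ds)

/-- genus theory -/
def GNS : Prop := ∀ (e : Crv) (b : Fld e), ∀ g ∈ Hc b.j e.δ, nu (ds e.δ) g = 0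

/-- splitting types, dihedral structure, inertia, the trace at a Kolyvagin prime -/
def TYQ : Prop := ∀ (e : Crv) (b : Fld e),
  (∀ q : ℕ, q.Prime → q ≠ 2 → ¬ q ∣ b.δ' → (∃ n, Typ b.K q n) ∧
    ∀ P φ, Ov q P → Fb q P φ → φ ∉ b.Γ → (Ideal.span {(q : 𝓞 b.K)}).IsPrime) ∧
  (∀ g ∉ b.Γ, ∀ c, 0 < c → g * g ∈ Hc b.j c) ∧
  (∀ l P g c, Ov l P → Inert P g → g ∈ b.Γ → 0 < c → ¬ l ∣ c → g ∈ Hc b.j c) ∧
  ∀ j c Ψ (k : b.Kp j c Ψ), (2 : ℤ) ^ j ∣ e.a k.l ∧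
    (e.r b.c).map (cj j) * (e.r k.φ).map (cj j) = 1

/-- reduction at a good prime -/
def RED : Prop := ∀ (e : Crv) (l : ℕ) (P : Ideal (𝓞 Qb)), l ∉ e.S → Ov l P →
  ∃ (W : Type) (_ : AddCommGroup W) (rd : Pt e.A e.B →+ W) (Fr : W →+ W),
    (∀ k y, 2 ^ k • y = 0 → rd y = 0 → y = 0) ∧
    (∀ g, Inert P g → ∀ y, rd (ga g y) = rd y) ∧
    (∀ g, Fb l P g → ∀ y, rd (ga g y) = Fr (rd y)) ∧
    (∀ q, Fr (Fr q) = e.a l • Fr q - (l : ℤ) • q) ∧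
    ∀ (φ : GQ) (y y' : Pt e.A e.B), Fb l P φ →
      (∀ (Q : Ideal (𝓞 Qb)), Q.IsPrime → (l : 𝓞 Qb) ∈ Q → ∀ g : GQ,
        (∀ x : 𝓞 Qb, g • x - x ^ l ∈ Q) → K1 Q (y' - ga g y)) →
      ∀ u : GQ, rd (ga u y') = Fr (rd (ga u y))

/-- coordinates on the points of order `2 ^ j` -/
def COO : Prop := ∀ (e : Crv) (j : ℕ), ∃ ι : Pt e.A e.B → Fin 2 → Rj j,
  (∀ x y, 2 ^ j • x = 0 → 2 ^ j • y = 0 → ι (x + y) = ι x + ι y) ∧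
  (∀ g x, 2 ^ j • x = 0 → ι (ga g x) = (e.r g).map (cj j) *ᵥ ι x) ∧
  (∀ v : Fin 2 → ℤ_[2], ∃ x, 2 ^ j • x = 0 ∧ ι x = fun i => cj j (v i)) ∧
  ∀ k ≤ j, ∀ x, 2 ^ j • x = 0 → (∀ i, ι x i ∈ Ideal.span {(2 : Rj j) ^ k, mj j X}) →
    2 ^ (j - k) • x = 0

/-- the twisted trace stays torsion up the tower -/
def TOW : Prop := ∀ (e : Crv) (b : Fld e) (c : ℕ), Squarefree c →
  (∀ q ∈ c.primeFactors, q ∉ e.S ∧ ¬ q ∣ b.δ') → b.Tor → ∀ T, b.Tv (e.δ * c) T →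
  IsOfFinAddOrder (∑ g ∈ T, sd (ds e.δ) g • ga g (b.Y (e.δ * c)))

/-- the coefficients modulo two -/
def LAM : Prop := ∀ j l i : ℕ, i ≤ l → l < j → ∃ lam : Rj j →+ ZMod 2,
  (∀ x ∈ Ideal.span {2, mj j X ^ (l + 1)}, lam x = 0) ∧
  ∀ n : ℕ, lam (mj j (1 + X) ^ n) = n.choose i

end Vale.Agent.P004F.Es
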