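import Vale.Agent.P004F.Es.Tr
import Vale.Agent.P004F.Es.St
import Vale.Agent.P004F.Ra.Lv

/-! # P004F, block ES: the local groups, the arithmetic Euler system -/

set_option linter.all false

open NumberField Matrix PowerSeries Finset
open scoped Classical Pointwise

noncomputable section

namespace Vale.Agent.P004F.Es

open Vale.Agent.P022 Vale.Agent.P004K
open Vale.Agent.P027M.S (Inert)
open Vale.Agent.P022D.W (dec phi_mem dec_gen conj_inP)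
open Vale.Agent.P022.H443 (inP)
open Vale.Agent.P022E.GW (Ov Fb)
open P004M.TE (Pt ga ga_mul ga_one ev_ga)
open P004S (nu)
open P004T (ds)
open Qx (zf Fk Ur FG FR dep op gE)

/-- the action on the points -/
scoped instance act (A B : ℤ) : DistribMulAction GQ (Pt A B) where
  smul g y := ga g y
  one_smul := ga_one
  mul_smul := ga_mul
  smul_zero g := map_zero (ga g)
  smul_add g := map_add (ga g)

section

variable {A B : ℤ} {P : Ideal (𝓞 Qb)} {κ p : ℕ} {φ g : GQ}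

theorem ga_eq (g : GQ) (y : Pt A B) : ga g y = g • y := rfl

theorem open_st (y : Pt A B) : IsOpen (MulAction.stabilizer GQ y : Set GQ) :=
  Subgroup.isOpen_of_mem_nhds _ (g := 1) ((ev_ga 1 y).mono fun g h => h.trans (ga_one y))

theorem ex_open {ι : Type} (s : Finset ι) (y : ι → Pt A B) :
    ∃ W : Subgroup GQ, IsOpen (W : Set GQ) ∧ ∀ w ∈ W, ∀ i ∈ s, w • y i = y i :=
  ⟨⨅ i ∈ s, MulAction.stabilizer GQ (y i), by
    simpa only [Subgroup.coe_iInf] using isOpen_biInter_finset fun i _ => open_st (y i),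
    fun w h i hi => Subgroup.mem_iInf.1 (Subgroup.mem_iInf.1 h i) hi⟩

theorem ov_ne (h : Ov p P) : P ≠ ⊥ := fun e => by
  have := h.2.2
  rw [e, Ideal.mem_bot, Nat.cast_eq_zero] at this
  exact h.1.ne_zero this

/-- the elements which vanish at `P` -/
def ZG (hP : P.IsPrime) : AddSubgroup Qb where
  carrier := {a | Zp P a}
  add_mem' := fun ⟨s, t, h1, h2, h3⟩ ⟨s', t', k1, k2, k3⟩ => ⟨s * s', s' * t + s * t',
    fun h => (hP.mem_or_mem h).elim h1 k1, P.add_mem (P.mul_mem_left _ h2) (P.mul_mem_left _ k2), by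
      push_cast; linear_combination (s' : Qb) * h3 + (s : Qb) * k3⟩
  zero_mem' := ⟨1, 0, (Ideal.ne_top_iff_one P).1 hP.ne_top, P.zero_mem, by simp⟩
  neg_mem' := fun ⟨s, t, h1, h2, h3⟩ => ⟨s, -t, h1, P.neg_mem h2, by
    push_cast; linear_combination -h3⟩

variable (fg : FG) (hD : 4 * A ^ 3 + 27 * B ^ 2 ≠ 0) (hP : Ov p P)
include fg hD hP

/-- the kernel of the reduction at an odd place -/
theorem ex_K1 (hp : p ≠ 2) : ∃ S : AddSubgroup (Pt A B), (∀ y, y ∈ S ↔ K1 P y) ∧ Ud 2 S ∧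
    ∀ g ∈ dec P, ∀ y ∈ S, g • y ∈ S := by
  obtain ⟨h0, h1, h2, h3, -⟩ := fg A B hD P hP.2.1 (ov_ne hP)
  have h4 : (2 : 𝓞 Qb) ∉ P := fun h => by
    obtain ⟨a, b, e⟩ := Nat.isCoprime_iff_coprime.2 ((Nat.coprime_primes hP.1 Nat.prime_two).2 hp)
    refine (Ideal.ne_top_iff_one P).1 hP.2.1.ne_top ?_
    have := congrArg (Int.cast : ℤ → 𝓞 Qb) e
    push_cast at this
    exact this ▸ P.add_mem (P.mul_mem_left _ hP.2.2) (P.mul_mem_left _ h)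
  exact ⟨.ofSub {y | K1 P y} ⟨0, h0⟩ fun x a y b => sub_eq_add_neg x y ▸ h1 x y a b, fun _ => Iff.rfl,
    ⟨fun y a e => (h3 h4 0 h0).unique ⟨a, e⟩ ⟨h0, nsmul_zero 2⟩, fun y a => (h3 h4 y a).exists⟩, h2⟩

end

section

variable {A B : ℤ} {P : Ideal (𝓞 Qb)} {κ : ℕ} {φ g : GQ}

/-- the unramified points of the formal group above two -/
structure L2 (P : Ideal (𝓞 Qb)) (κ : ℕ) (F : AddSubgroup (Pt A B)) (Z : AddSubgroup Qb) : Prop where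
  mem : ∀ y, y ∈ F ↔ Fk P κ y ∧ Ur P y
  tf : ∀ y ∈ F, 2 • y = 0 → y = 0
  st : ∀ g ∈ dec P, ∀ y ∈ F, g • y ∈ F
  z : ∀ a, a ∈ Z ↔ Zp P a
  ad : Ad F fun y => QuotientAddGroup.mk' Z (zf y / κ)
  two : ∀ y ∈ F, 2 • QuotientAddGroup.mk' Z (zf y / κ) = 0

theorem ex_l2 (fg : FG) (hD : 4 * A ^ 3 + 27 * B ^ 2 ≠ 0) (hP : Ov 2 P) (h0 : κ ≠ 0) (h2 : 2 ∣ κ) :
    ∃ (F : AddSubgroup (Pt A B)) (Z : AddSubgroup Qb), L2 P κ F Z := by
  obtain ⟨a0, -, -, -, -, a⟩ := fg A B hD P hP.2.1 (ov_ne hP)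
  obtain ⟨a1, a2, a3⟩ := a κ h0
  let F : AddSubgroup (Pt A B) := .ofSub {y | Fk P κ y ∧ Ur P y}
    ⟨0, ⟨a0, 1, 0, (Ideal.ne_top_iff_one P).1 hP.2.1.ne_top, by simp [zf]⟩, fun g _ => map_zero _⟩
    fun x a y b => sub_eq_add_neg x y ▸ ⟨(a1 x y a.1 b.1).1, fun g h => by
      rw [map_sub, a.2 g h, b.2 g h]⟩
  refine ⟨F, ZG hP.2.1, fun _ => Iff.rfl, fun y h => ((a3 h2 y).1 h.1).2,
    fun g hg y h => ⟨a2 g hg y h.1, fun s hs => ?_⟩, fun _ => Iff.rfl, fun x hx y hy => ?_,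
    fun y ⟨⟨_, s, t, h1, e⟩, _⟩ => ?_⟩
  · have := h.2 _ (conj_inP (inv_mem hg) hs)
    rw [inv_inv, ga_eq, mul_smul, mul_smul, inv_smul_eq_iff] at this
    exact this
  · have := (a1 _ y (add_mem hx hy : x + y ∈ F).1 hy.1).2
    rw [add_sub_cancel_right] at this
    rw [← map_add, eq_comm, ← sub_eq_zero, ← map_sub]
    rw [sub_sub_eq_add_sub] at this
    exact (QuotientAddGroup.eq_zero_iff _).2 this
  · rw [← map_nsmul]
    exact (QuotientAddGroup.eq_zero_iff _).2 ⟨s, 2 * t, h1, P.mul_mem_right _ hP.2.2, by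
      rw [two_nsmul, mul_add, e, two_mul]; rfl⟩

variable {F : AddSubgroup (Pt A B)} {Z : AddSubgroup Qb}

theorem L2.gen (l : L2 P κ F Z) (fr : FR) (hD : 4 * A ^ 3 + 27 * B ^ 2 ≠ 0) (hP : Ov 2 P)
    (h0 : κ ≠ 0) (h2 : 2 ∣ κ) (hφ : Fb 2 P φ) {f : ℕ} (hf : 0 < f) : ∃ e, (∀ k, Fe (2 ^ k) F φ f e) ∧
      ∀ k, ∀ y ∈ F, ∀ v ∈ F, φ ^ f • y = y + 2 ^ k • v → ∃ a, Co (2 ^ k) F φ f e y a := by
  obtain ⟨e, a1, a2, a3, -, a4, a5⟩ := fr A B hD P hP.2.1 hP.2.2 κ h0 h2 φ hφ f hf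
  refine ⟨e, fun k => ⟨hf, l.st φ (phi_mem hP.1 hP.2.1 hφ), (l.mem e).2 ⟨a1, a2⟩, a3,
    fun a w hw h i hi => by exact_mod_cast a4 k a w ((l.mem w).1 hw).1 h i hi⟩,
    fun k y hy v hv h => ?_⟩
  obtain ⟨a, w, b1, b2, b3, -⟩ := a5 k y v ((l.mem y).1 hy).1 ((l.mem y).1 hy).2 ((l.mem v).1 hv).1
    (sub_eq_iff_eq_add'.2 h)
  exact ⟨a, w, (l.mem w).2 ⟨b1, b2⟩, b3⟩

variable {f : ℕ} {e : Pt A B}

theorem Fe.md {n : ℕ} (he : Fe n F φ f e) (i : ℕ) : φ ^ (i % f) • e = φ ^ i • e := by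
  nth_rewrite 2 [← Nat.mod_add_div i f]
  rw [pow_add, mul_smul, pow_mul, (MulAction.stabilizer GQ e).pow_mem he.fix _]

theorem Fe.cong (he : Fe (2 ^ 1) F φ f e) {i k : ℕ} (h : φ ^ i • e = φ ^ k • e) : i ≡ k [MOD f] := by
  by_contra c
  have := he.ind (Pi.single (i % f) 1 - Pi.single (k % f) 1) 0 (zero_mem _) (by
    simp [sub_smul, Pi.single_apply, Nat.mod_lt _ he.pos, he.md, h]) _ (Nat.mod_lt i he.pos)
  rw [Pi.sub_apply, Pi.single_eq_same, Pi.single_eq_of_ne c] at this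
  norm_num at this

theorem L2.dg (l : L2 P κ F Z) (hP : Ov 2 P) (hφ : Fb 2 P φ) {n : ℕ} (he : Fe n F φ f e)
    (W : Subgroup GQ) (hW : IsOpen (W : Set GQ)) (hg : g ∈ dec P) : ∃ s : ℕ,
    (∀ i : ℕ, g • φ ^ i • e = φ ^ s • φ ^ i • e) ∧ ∃ u ∈ W, ∃ t, Inert P t ∧ g = u * φ ^ s * t := by
  obtain ⟨W', h1, h2⟩ := ex_open (range f) fun i => φ ^ i • e
  obtain ⟨s, t, u, a, b, rfl⟩ := dec_gen hP.1 hP.2.1 hP.2.2 hφ hg (W ⊓ W') (hW.inter h1)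
  refine ⟨s, fun i => ?_, u, b.1, t, a, rfl⟩
  rw [mul_smul, ← ga_eq t, ((l.mem _).1 (he.pw i)).2 t a, mul_smul, ← mul_smul (φ ^ s), ← pow_add,
    ← he.md, h2 u b.2 _ (mem_range.2 (Nat.mod_lt _ he.pos))]

end

/-! ### conductors -/

variable {e : Crv} {b : Fld e} {j c : ℕ} {Ψ : GQ → Rj j}

theorem mem_S' {p : ℕ} : p ∈ e.S' ↔ p ∈ e.S ∧ ¬ p ∣ e.δ := by simp [Crv.S']

theorem two_S' : 2 ∈ e.S' := mem_S'.2 ⟨e.two, e.ok.odd.not_two_dvd_nat⟩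

theorem kap_ne : e.S'.prod ^ 2 ≠ 0 := pow_ne_zero _ (List.prod_ne_zero fun h =>
  (Ra.S_prime (mem_S'.1 h).1).ne_zero rfl)

theorem kap_two : 2 ∣ e.S'.prod ^ 2 := dvd_pow (List.dvd_prod two_S') two_ne_zero

/-- the conductor -/
def cd (m : Finset (b.Kp j c Ψ)) : ℕ := e.δ * c * ∏ k ∈ m, k.l

theorem cd_empty : cd (∅ : Finset (b.Kp j c Ψ)) = e.δ * c := mul_one _

variable {m M : Finset (b.Kp j c Ψ)} {k : b.Kp j c Ψ}

theorem cd_insert (hk : k ∉ m) : cd (insert k m) = cd m * k.l := by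
  rw [cd, prod_insert hk, cd]; ring

theorem kp_S (k : b.Kp j c Ψ) : k.l ∉ e.S := fun h =>
  k.out (mem_union_left _ (List.mem_toFinset.2 h))

variable (h : b.Chr j c Ψ)
include h

theorem cd_pos (m : Finset (b.Kp j c Ψ)) : 0 < cd m :=
  mul_pos (mul_pos (one_pos.trans e.ok.one) (Ra.Chr.pos h)) (prod_pos fun k _ => k.kp.ov.1.pos)

theorem cd_dvd {q : ℕ} (hq : q.Prime) (d : q ∣ cd m) :
    q ∣ e.δ ∨ q ∈ c.primeFactors ∨ ∃ k ∈ m, k.l = q := by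
  rcases hq.dvd_mul.1 d with d | d
  · exact (hq.dvd_mul.1 d).imp_right fun d => .inl (Nat.mem_primeFactors.2 ⟨hq, d, h.sq.ne_zero⟩)
  · obtain ⟨k, a, b⟩ := (hq.prime.dvd_finset_prod_iff _).1 d
    exact .inr (.inr ⟨k, a, ((Nat.prime_dvd_prime_iff_eq hq k.kp.ov.1).1 b).symm⟩)

theorem cd_cop (m : Finset (b.Kp j c Ψ)) : (cd m).Coprime (e.N * e.S'.prod) := by
  refine Nat.coprime_of_dvd fun q hq d d' => ?_
  have a : q ∣ e.δ ∨ q ∉ e.S := (cd_dvd h hq d).imp_right fun a =>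
    a.elim (fun a => (h.cop q a).1) fun ⟨k, _, a⟩ => a ▸ kp_S k
  rcases hq.dvd_mul.1 d' with d' | d'
  · exact a.elim (fun a => hq.one_lt.ne' (Nat.eq_one_of_dvd_coprimes e.ok.cop d' a))
      fun a => (e.bad q hq a).1 (d'.mul_right _)
  · obtain ⟨p, hp, d'⟩ := (hq.prime.dvd_prod_iff).1 d'
    obtain rfl := (Nat.prime_dvd_prime_iff_eq hq (Ra.S_prime (mem_S'.1 hp).1)).1 d'
    exact a.elim (mem_S'.1 hp).2 fun a => a (mem_S'.1 hp).1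

theorem cd_N (m : Finset (b.Kp j c Ψ)) : (cd m).Coprime e.N := (cd_cop h m).coprime_mul_right_right

theorem cd_two (m : Finset (b.Kp j c Ψ)) : ¬ 2 ∣ cd m := fun d => Nat.prime_two.one_lt.ne'
  (Nat.eq_one_of_dvd_coprimes (cd_cop h m) d ((List.dvd_prod two_S').mul_left _))

theorem cd_nd (hk : k ∉ m) (hM : b.Inj (insert k m)) : ¬ k.l ∣ cd m := fun d => by
  rcases cd_dvd h k.kp.ov.1 d with a | a | ⟨k', a, a'⟩
  · exact (e.bad _ k.kp.ov.1 (kp_S k)).1 (a.mul_left _)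
  · exact k.out (mem_union_right _ a)
  · exact hk (hM k' (mem_insert_of_mem a) k (mem_insert_self _ _) a' ▸ a)

omit h in
theorem inj_sub (hM : b.Inj M) (hm : m ⊆ M) : b.Inj m := fun k a k' a' => hM k (hm a) k' (hm a')

variable (r1 : RC1) (ty : TYQ)
include r1 ty

theorem ine_cd (hk : k ∉ m) (hM : b.Inj (insert k m)) :
    ∑ i ∈ range (k.l + 1), k.τ ^ i • b.Y (cd (insert k m)) = e.a k.l • b.Y (cd m) ∧
    ∀ P : Ideal (𝓞 Qb), P.IsPrime → (k.l : 𝓞 Qb) ∈ P → ∀ φ : GQ,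
      (∀ x : 𝓞 Qb, φ • x - x ^ k.l ∈ P) → K1 P (b.Y (cd (insert k m)) - ga φ (b.Y (cd m))) := by
  have hl := k.kp.ov.1
  rw [cd_insert hk]
  exact (b.ine _ _ _ _ (cd_pos h m) (cd_N h m) hl (fun d => (hl.dvd_mul.1 d).elim (cd_nd h hk hM)
    fun d => (e.bad _ hl (kp_S k)).1 (d.mul_right _)) (k.gen _ (cd_pos h m) (cd_nd h hk hM))
    (((ty e b).1 _ hl k.kp.ne fun d => k.cop (d.mul_left _)).2 _ _ k.kp.ov k.kp.fb k.kp.out)).imp_right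
    fun a => a fun d => k.cop (d.mul_right _)

omit ty in
theorem hc_nrm (m : Finset (b.Kp j c Ψ)) : (Hc b.j (cd m)).Normal :=
  (r1 _ b.j b.iq _ (cd_pos h m)).2.2.1

omit ty in
theorem hc_le (hm : m ⊆ M) : Hc b.j (cd M) ≤ Hc b.j (cd m) := by
  have : cd M = cd m * ∏ k ∈ M \ m, k.l := by rw [cd, cd, ← prod_sdiff hm]; ring
  exact this ▸ (r1 _ b.j b.iq _ (cd_pos h m)).2.2.2.2.2 _ (prod_pos fun k _ => k.kp.ov.1.pos)

omit r1 ty in
theorem Y_fx (m : Finset (b.Kp j c Ψ)) : b.Y (cd m) ∈ Fx (Pt e.A e.B) (Hc b.j (cd m)) :=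
  b.fx _ (cd_pos h m) (cd_N h m)

/-- **the Euler system** -/
theorem sy (hM : b.Inj M) {f : AddMonoid.End (Pt e.A e.B)} (hf : f ∈ Op _ b.Γ)
    {S : AddSubgroup (Pt e.A e.B)} (hS : ∀ m ⊆ M, f (b.Y (cd m)) ∈ cor S b.Γ) :
    haveI := hc_nrm h r1 M
    Sy (2 ^ j) b.Γ (Hc b.j (cd M)) M (fun m => Hc b.j (cd m)) (·.τ) (·.l + 1) (fun k => e.a k.l)
      (cor S b.Γ) fun m => f (b.Y (cd m)) := by
  haveI := hc_nrm h r1 M
  have cm : Cm b.Γ (Hc b.j (cd M)) := (r1 _ b.j b.iq _ (cd_pos h M)).2.2.2.1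
  have tm : ∀ k : b.Kp j c Ψ, k.τ ∈ b.Γ := fun k => k.kp.ur k.kp.gn.1
  have gen := fun m k (hk : k ∉ m) (hm : insert k m ⊆ M) =>
    k.gen _ (cd_pos h m) (cd_nd h hk (inj_sub hM hm))
  refine ⟨cm, hc_nrm h r1, fun m => hc_le h r1, tm, fun m _ => ?_, fun m k hk hm => ?_,
    fun m k hk hm => ?_, fun m k hk hm => ?_, cor_st, hS, fun k => pow_succ' 2 j ▸ k.kp.dv,
    fun k => by exact_mod_cast ((ty e b).2.2.2 j c Ψ k).1⟩
  · haveI := hc_nrm h r1 m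
    exact fx_op hf (Y_fx h m)
  · exact cd_insert hk ▸ ((gen m k hk hm).2.1 _).2 dvd_rfl
  · exact cd_insert hk ▸ (gen m k hk hm).2.2
  · rw [← map_zsmul, ← (ine_cd h r1 ty hk (inj_sub hM hm)).1, map_sum]
    exact sum_congr rfl fun i _ => (cm.op1 hf (pow_mem (tm k) i)
      fun g hg => Y_fx h _ g (hc_le h r1 hm hg)).symm

omit h r1 ty

theorem op_op {p : ℕ} (hp : p ∈ e.S) : op e.N e.a p (b.φ p) ∈ Op (Pt e.A e.B) b.Γ := by
  have := b.ch.mem p hp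
  refine add_mem (sub_mem (natCast_mem _ p) (zsmul_mem (ge_op this) _)) ?_
  split
  exacts [zero_mem _, ge_op (mul_mem this this)]

theorem ops_op {L : List ℕ} (hL : ∀ p ∈ L, p ∈ e.S) :
    ∀ f ∈ L.map fun p => op e.N e.a p (b.φ p), f ∈ Op (Pt e.A e.B) b.Γ := fun f hf => by
  obtain ⟨p, hp, rfl⟩ := List.mem_map.1 hf
  exact op_op (hL p hp)

/-- the depletion away from two -/
def dp1 (b : Fld e) : AddMonoid.End (Pt e.A e.B) :=
  (e.w * e.S'.prod) • ((e.S'.erase 2).map fun p => op e.N e.a p (b.φ p)).prod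

theorem dep_op : dep e.N e.w e.a e.S' b.φ ∈ Op (Pt e.A e.B) b.Γ :=
  nsmul_mem (Subring.list_prod_mem _ (ops_op fun p h => (mem_S'.1 h).1)) _

theorem dp1_op : dp1 b ∈ Op (Pt e.A e.B) b.Γ :=
  nsmul_mem (Subring.list_prod_mem _ (ops_op fun p h => (mem_S'.1 (List.mem_of_mem_erase h)).1)) _

theorem dep_eq {N : Subgroup GQ} [N.Normal] (cm : Cm b.Γ N) {y : Pt e.A e.B} (hy : y ∈ Fx _ N) :
    dep e.N e.w e.a e.S' b.φ y = op e.N e.a 2 (b.φ 2) (dp1 b y) := by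
  have := cm.perm ((List.perm_cons_erase two_S').map fun p => op e.N e.a p (b.φ p))
    (ops_op fun p h => (mem_S'.1 h).1) hy
  exact (congrArg ((e.w * e.S'.prod) • ·) this).trans (map_nsmul (op e.N e.a 2 (b.φ 2)) _ _).symm

theorem op_two_eq (φ : GQ) (y : Pt e.A e.B) : op e.N e.a 2 φ y =
    (2 : ℤ) • y - e.a 2 • φ • y + (if 2 ∣ e.N then 0 else 1 : ℤ) • φ • φ • y := by
  rw [two_zsmul, ← two_nsmul, ← mul_smul]
  unfold op
  split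
  · rw [zero_zsmul]; rfl
  · rw [one_zsmul]; rfl

end Vale.Agent.P004F.Es
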