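import Vale.Agent.P004F.Es.Der

/-! # P004F, block ES: traces, the value at the place above two -/

set_option autoImplicit false
set_option linter.all false

noncomputable section

namespace Vale.Agent.P004F.Es

open Finset

variable {G E V R R' R'' W : Type} [Group G] [AddCommGroup E] [DistribMulAction G E] [CommRing R]
  [CommRing R'] [CommRing R''] [AddCommGroup V] [Module R V] [AddCommGroup W] {n : ℕ}
  {C A F S : AddSubgroup E} {Γ H H' D : Subgroup G} {g h φ : G} {x y X : E} {U U' T : Finset G}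
  {ψ : G → R} {ψ' : G → R'} {ψ'' : G → R''} {ι : E → V} {r : G → V →ₗ[R] V}

theorem Ad.sum' {f : E → W} (h : Ad S f) {κ : Type} (s : Finset κ) {y : κ → E}
    (hy : ∀ i ∈ s, y i ∈ S) : f (∑ i ∈ s, y i) = ∑ i ∈ s, f (y i) := by
  rw [← sum_attach s y, h.sum (y := fun i : s => y i) _ fun i => hy i.1 i.2,
    sum_attach s fun i => f (y i)]

theorem ex_fr [Finite (G ⧸ H)] (hle : H ≤ Γ) (mul : ∀ g ∈ Γ, ∀ h ∈ Γ, ψ (g * h) = ψ g * ψ h)
    (one : ∀ h ∈ H, ψ h = 1) : ∃ U, Fr Γ H U ψ := by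
  classical
  have := Fintype.ofFinite (G ⧸ H)
  refine ⟨(univ.filter fun q : G ⧸ H => q.out ∈ Γ).image Quotient.out, hle, fun u hu => ?_,
    fun g hg => ?_, mul, one⟩
  · obtain ⟨q, hq, rfl⟩ := mem_image.1 hu
    exact (mem_filter.1 hq).2
  obtain ⟨h, e⟩ := QuotientGroup.mk_out_eq_mul H g
  refine ⟨(QuotientGroup.mk g : G ⧸ H).out, ⟨mem_image_of_mem _ (mem_filter.2 ⟨mem_univ _, ?_⟩), ?_⟩,
    ?_⟩
  · rw [e]; exact mul_mem hg (hle h.2)
  · rw [e, inv_mul_cancel_left]; exact h.2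
  · rintro _ ⟨a, b⟩
    obtain ⟨q, -, rfl⟩ := mem_image.1 a
    rw [QuotientGroup.eq.2 b, QuotientGroup.out_eq']

theorem Fr.tow (fr : Fr Γ H U ψ) (f1 : Fr Γ H' U' ψ') (f2 : Fr H' H T ψ'') {p : G → W}
    (hp : ∀ u ∈ Γ, ∀ h ∈ H, p (u * h) = p u) :
    ∑ u ∈ U, p u = ∑ u ∈ U', ∑ v ∈ T, p (u * v) := by
  rw [← sum_product', ← fr.rei hp (v := fun k : G × G => k.1 * k.2) (s := U' ×ˢ T)
    (fun k hk => mul_mem (f1.mem _ (mem_product.1 hk).1) (f1.le (f2.mem _ (mem_product.1 hk).2)))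
    fun g hg => ?_]
  obtain ⟨u, ⟨a, b⟩, uq⟩ := f1.rep g hg
  obtain ⟨v, ⟨c, d⟩, vq⟩ := f2.rep _ (inv_mem b)
  rw [inv_inv] at d vq
  refine ⟨(u, v), ⟨mem_product.2 ⟨a, c⟩, mul_assoc g⁻¹ u v ▸ d⟩, ?_⟩
  rintro ⟨u', v'⟩ ⟨e, e'⟩
  obtain ⟨e1, e2⟩ := mem_product.1 e
  rw [← mul_assoc] at e'
  obtain rfl : u' = u := uq u' ⟨e1, (mul_mem_cancel_right (f2.mem _ e2)).1 (f2.le e')⟩
  exact Prod.ext rfl (vq v' ⟨e2, e'⟩)

theorem Iv.tr (i : Iv n Γ H A X) (f2 : Fr H' H T ψ'') (hle : H' ≤ Γ) :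
    Iv n Γ H' A (∑ v ∈ T, v • X) := by
  refine ⟨i.st, sum_mem fun v hv => i.cj (hle (f2.mem v hv)), fun h hh => ?_⟩
  let q := QuotientAddGroup.mk' (A.map (nsmulAddMonoidHom n))
  have := f2.sum (p := fun u => q (u • X)) (fun u hu k hk => by
    obtain ⟨w, hw, e⟩ := i.eq (hle hu) hk
    rw [e, map_add, add_eq_left]
    exact (QuotientAddGroup.eq_zero_iff _).2 ⟨w, hw, rfl⟩) hh
  rw [← map_sum, ← map_sum, ← sub_eq_zero, ← map_sub] at this
  obtain ⟨w, hw, e⟩ := (QuotientAddGroup.eq_zero_iff _).1 this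
  refine ⟨w, hw, ?_⟩
  rw [smul_sum, ← sub_eq_iff_eq_add']
  simp only [mul_smul] at e
  exact e.symm

theorem tr_sum {M : Type} [Monoid M] [DistribMulAction M W] (fr : Fr Γ H U ψ) (f1 : Fr Γ H' U' ψ')
    (f2 : Fr H' H T ψ'') (st : ∀ g ∈ Γ, g • X ∈ A) {β : E → W} (hβ : Ad A β)
    (h1 : ∀ u ∈ Γ, ∀ h ∈ H, β ((u * h) • X) = β (u • X)) {θ : G → M}
    (h2 : ∀ u ∈ Γ, ∀ h ∈ H', θ (u * h) = θ u) :
    ∑ u ∈ U, θ u • β (u • X) = ∑ u ∈ U', θ u • β (u • ∑ v ∈ T, v • X) := by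
  rw [fr.tow f1 f2 fun u hu h hh => by rw [h1 u hu h hh, h2 u hu h (f2.le hh)]]
  refine sum_congr rfl fun u hu => ?_
  have hu := f1.mem u hu
  rw [smul_sum, hβ.sum' _ fun v hv => mul_smul u v X ▸ st _ (mul_mem hu (f1.le (f2.mem v hv))),
    smul_sum]
  exact sum_congr rfl fun v hv => by rw [h2 u hu v (f2.mem v hv), mul_smul]

theorem zz_tr (k : Kd n C ι r) (fr : Fr Γ H U ψ) (f1 : Fr Γ H' U' ψ) (f2 : Fr H' H T ψ'')
    (i : Iv n Γ H A X) (hA : A ≤ C) (hg : g ∈ Γ) :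
    zz C n ι U ψ X g = zz C n ι U' ψ (∑ v ∈ T, v • X) g :=
  tr_sum fr f1 f2 (fun _ => i.cj) (k.ad hA (i.st g hg)) (fun u hu h hh => by
    obtain ⟨w, hw, e⟩ := i.eq hu hh
    rw [e, k.inv (hA (i.cj hu)) (hA (i.st g hg _ (i.cj hu))) (hA hw) (hA (i.st g hg w hw))])
    fun u hu h hh => by rw [← mul_assoc, f1.psi (mul_mem hg hu) hh]

/-! ### coordinates -/

variable {d : ℕ} {e : E} {a a' : ℕ → ℤ}

theorem Co.zero : Co n F φ d e 0 0 := ⟨0, zero_mem _, by simp⟩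

theorem Co.plus (c : Co n F φ d e x a) (c' : Co n F φ d e y a') : Co n F φ d e (x + y) (a + a') := by
  obtain ⟨w, hw, rfl⟩ := c
  obtain ⟨v, hv, rfl⟩ := c'
  refine ⟨w + v, add_mem hw hv, ?_⟩
  simp only [Pi.add_apply, add_smul, sum_add_distrib, smul_add]
  abel

theorem Co.zsmul (c : Co n F φ d e x a) (k : ℤ) : Co n F φ d e (k • x) (k • a) := by
  obtain ⟨w, hw, rfl⟩ := c
  refine ⟨k • w, zsmul_mem hw k, ?_⟩
  simp only [Pi.smul_apply, smul_eq_mul, mul_smul, smul_add, smul_sum, smul_comm k n]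

theorem Co.sum {κ : Type} {s : Finset κ} {y : κ → E} {a : κ → ℕ → ℤ}
    (c : ∀ i ∈ s, Co n F φ d e (y i) (a i)) : Co n F φ d e (∑ i ∈ s, y i) (∑ i ∈ s, a i) := by
  classical
  induction s using Finset.induction_on with
  | empty => exact Co.zero
  | insert i s hi ih =>
    rw [sum_insert hi, sum_insert hi]
    exact (c i (mem_insert_self _ _)).plus (ih fun j hj => c j (mem_insert_of_mem hj))

theorem odd_unit {j m : ℕ} (hn : ((2 ^ j : ℕ) : R) = 0) (hm : Odd m) : IsUnit (m : R) := by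
  obtain ⟨a, b, e⟩ := Nat.isCoprime_iff_coprime.2 ((Nat.coprime_two_right.2 hm).pow_right j)
  have := congrArg (Int.cast : ℤ → R) e
  rw [Int.cast_add, Int.cast_mul, Int.cast_mul, Int.cast_natCast, Int.cast_natCast, hn, mul_zero,
    add_zero, Int.cast_one] at this
  exact IsUnit.of_mul_eq_one_right _ this

theorem tf_pow (tf : ∀ y ∈ F, 2 • y = 0 → y = 0) (hy : y ∈ F) {k : ℕ} (e : 2 ^ k • y = 0) :
    y = 0 := by
  induction k with
  | zero => simpa using e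
  | succ k ih => exact ih (tf _ (nsmul_mem hy _) (by rwa [← mul_nsmul', ← pow_succ']))

/-- the residue of the twisted sum -/
theorem theta (f : Fr Γ H U ψ) (i : Iv n Γ H A X) (hA : A ≤ F) (he : Fe n F φ d e) (hφ : φ ∈ Γ)
    (hn : (n : R) = 0) {c : G → ℕ → ℤ} (hc : ∀ u ∈ Γ, Co n F φ d e (u • X) (c u)) (h2 : 2 ∣ n)
    {ζ : E → W} (hζ : Ad F ζ) (h0 : ∀ y ∈ F, 2 • ζ y = 0) {lam : R →+ ZMod 2}
    (hl : ∀ s, lam (s * ∑ u ∈ U, ψ u * c u 0) = 0) :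
    ∑ u ∈ U, (lam (ψ u)).val • ζ (u • X) = 0 := by
  have : ∀ u ∈ U, (lam (ψ u)).val • ζ (u • X) =
      ∑ j ∈ range d, ((lam (ψ u)).val * c u j : ℤ) • ζ (φ ^ j • e) := fun u hu => by
    obtain ⟨w, hw, e1⟩ := hc u (f.mem u hu)
    obtain ⟨m, rfl⟩ := h2
    rw [e1, hζ _ (sum_mem fun j _ => zsmul_mem (he.pw j) _) _ (nsmul_mem hw _), mul_nsmul',
      two_nsmul, hζ _ (nsmul_mem hw m) _ (nsmul_mem hw m), ← two_nsmul, h0 _ (nsmul_mem hw m),
      add_zero, hζ.sum _ fun j => zsmul_mem (he.pw j) _, smul_sum]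
    exact sum_congr rfl fun j _ => by rw [hζ.zsmul (he.pw j), mul_smul, natCast_zsmul]
  rw [sum_congr rfl this, sum_comm]
  refine sum_eq_zero fun j hj => ?_
  obtain ⟨m, hm⟩ := (ZMod.intCast_zmod_eq_zero_iff_dvd
    (∑ u ∈ U, ((lam (ψ u)).val * c u j : ℤ)) 2).1 (by
      rw [← hl (ψ (φ ^ j)), ← co_sum f i hA he hφ hn hc (mem_range.1 hj), map_sum, Int.cast_sum]
      refine sum_congr rfl fun u _ => ?_
      rw [mul_comm (ψ u), ← zsmul_eq_mul, map_zsmul, zsmul_eq_mul, mul_comm]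
      simp)
  rw [← sum_smul, hm, mul_comm, mul_smul, natCast_zsmul, h0 _ (he.pw j), smul_zero]

/-- a torsion point has no coordinates -/
theorem tor_abs {j : ℕ} (he : Fe (2 ^ j) F φ d e) (hn : ((2 ^ j : ℕ) : R) = 0)
    (tf : ∀ y ∈ F, 2 • y = 0 → y = 0) (hy : y ∈ F) (c : Co (2 ^ j) F φ d e y a)
    (ht : IsOfFinAddOrder y) : (a 0 : R) = 0 := by
  obtain ⟨m, h0, e1⟩ := isOfFinAddOrder_iff_nsmul_eq_zero.1 ht
  obtain ⟨k, m, hm, rfl⟩ := Nat.exists_eq_two_pow_mul_odd h0.ne'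
  have e2 := tf_pow tf (nsmul_mem hy m) (k := k) (by rwa [← mul_nsmul'])
  have := c.zsmul m
  rw [natCast_zsmul, e2] at this
  simpa [(odd_unit hn hm).mul_right_eq_zero] using he.uniq hn this Co.zero he.pos

/-- the value is divisible by the Euler factor -/
theorem dv_abs (f : Fr Γ H U ψ) (i : Iv n Γ H A X) (he : Fe n F φ d e) (hφ : φ ∈ Γ)
    (hn : (n : R) = 0) (tf : ∀ y ∈ F, 2 • y = 0 → y = 0)
    (ex : ∀ y ∈ F, ∀ v ∈ F, φ ^ d • y = y + n • v → ∃ a, Co n F φ d e y a)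
    (hd : ∀ u ∈ Γ, u⁻¹ * φ ^ d * u ∈ H) {N a b : ℤ}
    (sp : ∀ y ∈ A, ∃ w, (∃ k : ℕ, 2 ^ k • w = 0) ∧ N • y - w ∈ F) {X' : E} {c : G → ℕ → ℤ}
    (hc : ∀ u ∈ Γ, Co n F φ d e (u • X') (c u)) (hF : ∀ u ∈ Γ, u • X' ∈ F)
    (hX : ∀ u ∈ Γ, u • X' = (2 : ℤ) • u • X - a • φ • u • X + b • φ • φ • u • X) :
    2 * ψ φ ^ 2 - a * ψ φ + b ∣ ψ φ ^ 2 * (N * ∑ u ∈ U, ψ u * c u 0) := by
  choose! w hw hw' using sp
  let P : AddSubgroup E :=
    { carrier := {w | ∃ k : ℕ, 2 ^ k • w = 0}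
      add_mem' := fun ⟨k, a⟩ ⟨l, b⟩ => ⟨k + l, by
        rw [smul_add, pow_add, mul_nsmul, a, mul_nsmul', b]; simp⟩
      zero_mem' := ⟨0, by simp⟩
      neg_mem' := fun ⟨k, a⟩ => ⟨k, by rw [smul_neg, a, neg_zero]⟩ }
  have hP : ∀ y ∈ A, w y ∈ P := hw
  have Pφ : ∀ y ∈ P, φ • y ∈ P := fun y ⟨k, a⟩ => ⟨k, by rw [smul_comm, a, smul_zero]⟩
  have uq : ∀ {x y}, x ∈ F → y ∈ F → x - y ∈ P → x = y := fun a b ⟨k, e⟩ =>
    sub_eq_zero.1 (tf_pow tf (sub_mem a b) e)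
  let π : E → E := fun y => N • y - w y
  have π1 : ∀ y ∈ A, ∀ v ∈ A, π (y + n • v) = π y + n • π v := fun y hy v hv =>
    uq (hw' _ (add_mem hy (nsmul_mem hv n))) (add_mem (hw' y hy) (nsmul_mem (hw' v hv) n)) (by
      convert sub_mem (add_mem (hP y hy) (nsmul_mem (hP v hv) n))
        (hP _ (add_mem hy (nsmul_mem hv n))) using 1
      simp only [π]
      module)
  have π2 : ∀ y ∈ A, π (φ • y) = φ • π y := fun y hy =>
    uq (hw' _ (i.st φ hφ y hy)) (he.st _ (hw' y hy)) (by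
      convert sub_mem (Pφ _ (hP y hy)) (hP _ (i.st φ hφ y hy)) using 1
      simp only [π, smul_sub, smul_comm φ N]
      abel)
  have π3 : ∀ k : ℕ, ∀ y ∈ A, π (φ ^ k • y) = φ ^ k • π y := fun k y hy => by
    induction k with
    | zero => simp
    | succ k ih => rw [pow_succ', mul_smul, π2 _ (i.st _ (pow_mem hφ k) y hy), ih, mul_smul]
  have : ∀ u ∈ Γ, ∃ a, Co n F φ d e (π (u • X)) a := fun u hu => by
    obtain ⟨v, hv, e1⟩ := i.eq hu (hd u hu)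
    refine ex _ (hw' _ (i.cj hu)) _ (hw' v hv) ?_
    rw [← π3 d _ (i.cj hu), ← π1 _ (i.cj hu) v hv, ← e1, ← mul_smul]
    congr 2
    group
  choose! c' hc' using this
  have s1 : ∑ u ∈ U, ψ φ * (ψ u * c' (φ * u) 0) = ∑ u ∈ U, ψ u * c' u 0 ∧
      ∑ u ∈ U, ψ φ ^ 2 * (ψ u * c' (φ * φ * u) 0) = ∑ u ∈ U, ψ u * c' u 0 := by
    have hp : ∀ u ∈ Γ, ∀ h ∈ H, ψ (u * h) * c' (u * h) 0 = ψ u * c' u 0 := fun u hu h hh => by
      obtain ⟨v, hv, e1⟩ := i.eq hu hh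
      have := hc' _ (mul_mem hu (f.le hh))
      rw [e1, π1 _ (i.cj hu) v hv] at this
      rw [f.psi hu hh, he.uniq hn this ((hc' u hu).add (hw' v hv)) he.pos]
    exact ⟨by
      rw [← f.sum (p := fun u => ψ u * c' u 0) hp hφ]
      exact sum_congr rfl fun u hu => by rw [f.mul _ hφ _ (f.mem u hu), mul_assoc], by
      rw [← f.sum (p := fun u => ψ u * c' u 0) hp (mul_mem hφ hφ)]
      exact sum_congr rfl fun u hu => by
        rw [f.mul _ (mul_mem hφ hφ) _ (f.mem u hu), f.mul _ hφ _ hφ, sq, mul_assoc (ψ φ * ψ φ)]⟩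
  refine ⟨∑ u ∈ U, ψ u * c' u 0, ?_⟩
  have s2 : N * ∑ u ∈ U, ψ u * c u 0 = ∑ u ∈ U, (2 * (ψ u * c' u 0) - a * (ψ u * c' (φ * u) 0) +
      b * (ψ u * c' (φ * φ * u) 0)) := by
    rw [mul_sum]
    refine sum_congr rfl fun u hu => ?_
    have hu := f.mem u hu
    have m := i.cj hu
    have m1 := he.st _ (hw' _ m)
    have c1 := (((hc' u hu).zsmul 2).plus ((hc' _ (mul_mem hφ hu)).zsmul (-a))).plus
      ((hc' _ (mul_mem (mul_mem hφ hφ) hu)).zsmul b)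
    rw [mul_smul, mul_smul, mul_smul, π2 _ (i.st φ hφ _ m), π2 _ m, ← uq (zsmul_mem (hF u hu) N)
      (add_mem (add_mem (zsmul_mem (hw' _ m) 2) (zsmul_mem m1 (-a))) (zsmul_mem (he.st _ m1) b))
      (by
        convert add_mem (add_mem (zsmul_mem (hP _ m) 2) (zsmul_mem (Pφ _ (hP _ m)) (-a)))
          (zsmul_mem (Pφ _ (Pφ _ (hP _ m))) b) using 1
        nth_rewrite 1 [hX u hu]
        simp only [π, smul_sub φ, smul_comm φ N]
        generalize φ • φ • w (u • X) = x4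
        generalize φ • w (u • X) = x5
        generalize φ • φ • u • X = x1
        generalize φ • u • X = x2
        generalize u • X = x3
        module)] at c1
    have := he.uniq hn ((hc u hu).zsmul N) c1 he.pos
    simp only [Pi.add_apply, Pi.smul_apply, smul_eq_mul] at this
    push_cast at this
    linear_combination ψ u * this
  rw [s2, sum_add_distrib, sum_sub_distrib, ← mul_sum, ← mul_sum, ← mul_sum]
  rw [← mul_sum, ← mul_sum] at s1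
  linear_combination (-a * ψ φ) * s1.1 + b * s1.2

variable (Γ S) in
/-- the points all of whose conjugates lie in `S` -/
def cor : AddSubgroup E where
  carrier := {x | ∀ g ∈ Γ, g • x ∈ S}
  add_mem' a b g h := by rw [smul_add]; exact add_mem (a g h) (b g h)
  zero_mem' g _ := by rw [smul_zero]; exact zero_mem S
  neg_mem' a g h := by rw [smul_neg]; exact neg_mem (a g h)

theorem cor_le : cor S Γ ≤ S := fun x h => one_smul G x ▸ h 1 (one_mem Γ)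

theorem cor_st : ∀ g ∈ Γ, ∀ x ∈ cor S Γ, g • x ∈ cor S Γ :=
  fun g hg x h u hu => mul_smul u g x ▸ h _ (mul_mem hu hg)

/-- one odd multiplier for finitely many points -/
theorem ex_core [H.Normal] (fr : Fr Γ H U ψ) {κ : Type} (Z : Finset κ) {z : κ → E}
    (hz : ∀ i ∈ Z, z i ∈ Fx E H) {c : ℕ} (sp : ∀ y ∈ Fx E H, ∃ (m k : ℕ) (w : E), Odd m ∧
      2 ^ k • w = 0 ∧ (c * m) • y - w ∈ F) : ∃ (m : ℕ) (S : AddSubgroup E), Odd m ∧
      (∀ i ∈ Z, z i ∈ cor S Γ) ∧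
      ∀ y ∈ S, ∃ w, (∃ k : ℕ, 2 ^ k • w = 0) ∧ ((c * m : ℕ) : ℤ) • y - w ∈ F := by
  choose! m k w h1 h2 h3 using sp
  let N := ∏ x ∈ Z ×ˢ U, m (x.2 • z x.1)
  refine ⟨N,
    { carrier := {y | ∃ w, (∃ k : ℕ, 2 ^ k • w = 0) ∧ ((c * N : ℕ) : ℤ) • y - w ∈ F}
      add_mem' := fun ⟨w, ⟨k, a⟩, b⟩ ⟨v, ⟨l, a'⟩, b'⟩ => ⟨w + v, ⟨k + l, by
        rw [smul_add, pow_add, mul_nsmul, a, mul_nsmul', a']; simp⟩, by
        rw [smul_add, add_sub_add_comm]; exact add_mem b b'⟩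
      zero_mem' := ⟨0, ⟨0, by simp⟩, by simp⟩
      neg_mem' := fun ⟨w, ⟨k, a⟩, b⟩ => ⟨-w, ⟨k, by rw [smul_neg, a, neg_zero]⟩, by
        rw [smul_neg, neg_sub_neg, ← neg_sub]; exact neg_mem b⟩ },
    prod_induction _ _ (fun _ _ => Odd.mul) odd_one fun x hx =>
      h1 _ (fx_smul _ (hz _ (mem_product.1 hx).1)), fun i hi g hg => ?_, fun y h => h⟩
  obtain ⟨u, ⟨a, b⟩, -⟩ := fr.rep g hg
  obtain ⟨t, e⟩ : m (u • z i) ∣ N := dvd_prod_of_mem _ (mk_mem_product hi a)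
  have f := fx_smul u (hz i hi)
  refine ⟨t • w (u • z i), ⟨k (u • z i), by rw [smul_comm, h2 _ f, smul_zero]⟩, ?_⟩
  rw [← hz i hi _ b, ← mul_smul, mul_inv_cancel_left, hz i hi _ b, e, natCast_zsmul, ← mul_assoc,
    mul_nsmul, ← smul_sub]
  exact nsmul_mem (h3 _ f) t

/-- the local class is not divisible -/
theorem free_abs (k : Kd n C ι r) (hF : F ≤ C) {m n' : ℕ} (hn : n = n' * m) (he : Fe n' F φ d e)
    (hφ : φ ∈ D) (st : ∀ g ∈ D, ∀ y ∈ F, g • y ∈ F) {σ : G → ℤ}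
    (σm : ∀ g h, σ (g * h) = σ g * σ h) (σ2 : ∀ g, σ g * σ g = 1) (σd : σ (φ ^ d) = 1)
    (hD : ∀ g ∈ D, ∃ s : ℕ, σ g = σ (φ ^ s) ∧ ∀ i : ℕ, g • φ ^ i • e = φ ^ s • φ ^ i • e)
    {J : AddSubgroup V} (hψ : ∀ g ∈ D, ∀ v, ψ g • v - σ g • v ∈ J)
    (inj : ∀ x, n • x = 0 → ι x ∈ J → m • x = 0) {s : ℤ} {v : E} (hv : n • v = 0)
    (hs : ∀ g ∈ D, s • eps C n ι ψ φ d e g - (σ g • r g (ι v) - ι v) ∈ J) {N : ℕ}
    (idx : ∀ y : E, (∀ g ∈ D, σ g • g • y = y) → N • y ∈ F) : (n' : ℤ) ∣ N * s := by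
  let e' := ∑ i ∈ range d, σ (φ ^ i) • φ ^ i • e
  have m' : e' ∈ F := sum_mem fun i _ => zsmul_mem (he.pw i) _
  have σ1 : σ 1 = 1 := by rw [← one_mul (1 : G), σm, σ2]
  have a1 : σ φ • φ • e' = e' := by
    have := sum_range_succ' (fun i => σ (φ ^ i) • φ ^ i • e) d
    rw [sum_range_succ, σd, he.fix, pow_zero, σ1, one_smul G, add_left_inj] at this
    rw [smul_sum, smul_sum]
    refine (sum_congr rfl fun i _ => ?_).trans this.symm
    rw [smul_comm φ, smul_smul, smul_smul, ← σm, ← pow_succ']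
  have a2 : ∀ i : ℕ, σ (φ ^ i) • φ ^ i • e' = e' := fun i => by
    induction i with
    | zero => simp [σ1]
    | succ i ih => rw [pow_succ, σm, mul_smul, mul_smul, ← smul_comm (φ ^ i), a1, ih]
  have a3 : ∀ g ∈ D, g • e' = σ g • e' := fun g hg => by
    obtain ⟨i, b, c⟩ := hD g hg
    have : g • e' = φ ^ i • e' := by
      simp only [e', smul_sum, smul_comm g, smul_comm (φ ^ i) (_ : ℤ), c]
    rw [this, b]
    nth_rewrite 2 [← a2 i]
    rw [smul_smul, σ2, one_smul]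
  let Q := dv C n e'
  have hQ : n • Q = e' := k.ud.mul (hF m')
  have a4 : ∀ g ∈ D, σ g • g • m • (s • Q - v) = m • (s • Q - v) := fun g hg => by
    have t1 : n • (σ g • g • Q - Q) = 0 := by
      rw [smul_sub, smul_comm n, smul_comm n, hQ, a3 g hg, smul_smul, σ2, one_smul, sub_self]
    have t2 : n • g • v = 0 := by rw [smul_comm, hv, smul_zero]
    have t3 : n • (σ g • g • v - v) = 0 := by rw [smul_sub, smul_comm n, t2, hv]; simp
    have b1 : ι (σ g • g • Q - Q) = ∑ i ∈ range d, σ (g * φ ^ i) • bb C n ι g (φ ^ i • e) := by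
      have ad := k.ad hF (st g hg)
      have : σ g • bb C n ι g e' = ∑ i ∈ range d, σ (g * φ ^ i) • bb C n ι g (φ ^ i • e) := by
        rw [ad.sum _ fun i => zsmul_mem (he.pw i) _, smul_sum]
        exact sum_congr rfl fun i _ => by rw [σm, mul_smul, ← ad.zsmul (he.pw i)]
      rw [← this, bb,
        ← k.add.zsmul (k.ud.tors (hF m') (hF (st g hg _ m'))), a3 g hg, k.ud.ad.zsmul (hF m'),
        smul_sub, smul_smul, σ2, one_smul]
    have b2 : eps C n ι ψ φ d e g - ι (σ g • g • Q - Q) ∈ J := by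
      rw [b1, eps, ← sum_sub_distrib]
      exact sum_mem fun i _ => hψ _ (mul_mem hg (pow_mem hφ i)) _
    have b3 := inj (s • (σ g • g • Q - Q) - (σ g • g • v - v))
      (by rw [smul_sub, smul_comm n, t1, t3]; simp) (by
        rw [k.add.sub (zsmul_mem (S := AddSubgroup E) t1 s) t3, k.add.zsmul t1,
          k.add.sub (zsmul_mem (S := AddSubgroup E) t2 _) hv, k.add.zsmul t2, k.eqv g v hv]
        convert sub_mem (hs g hg) (zsmul_mem b2 s) using 1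
        module)
    rw [← sub_eq_zero, ← b3]
    simp only [smul_sub g, smul_comm g m, smul_comm g s]
    generalize g • Q = x1, g • v = x2
    module
  have := he.ind (fun i => N * s * σ (φ ^ i)) _ (idx _ a4) (by
    rw [smul_comm n' N, smul_smul n' m, ← hn, smul_sub, hv, smul_comm n s, hQ, sub_zero, smul_sum,
      smul_sum]
    exact sum_congr rfl fun i _ => by rw [mul_smul, mul_smul, natCast_zsmul]) 0 he.pos
  simpa [σ1] using this

end Vale.Agent.P004F.Es
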