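import Vale.Agent.P004F.Es.Loc

/-! # P004F, block ES: the characters, the local cocycle above two -/

set_option linter.all false

open NumberField Matrix PowerSeries Finset
open scoped Classical Pointwise

noncomputable section

namespace Vale.Agent.P004F.Es

open Vale.Agent.P022 Vale.Agent.P004K
open Vale.Agent.P022K.G2 (In)
open Vale.Agent.P027M.S (Inert)
open Vale.Agent.P022D.W (dec phi_mem inP_le_dec)
open Vale.Agent.P022E.GW (Ov Fb)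
open P004M.TE (Pt ga)
open P004S (nu)
open P004T (ds)
open Pr (ac)
open Qx (zf Fk Ur FG FR dep op)
open Ra (sd_mul sd_sq sd_zero aa_eq two_Rj cj_dvd)

variable {e : Crv} {b : Fld e} {j c : ℕ} {Ψ : GQ → Rj j} {g : GQ} {m M : Finset (b.Kp j c Ψ)}

/-- the linear action -/
def rr (e : Crv) (j : ℕ) (g : GQ) : (Fin 2 → Rj j) →ₗ[Rj j] (Fin 2 → Rj j) :=
  mulVecLin ((e.r g).map (cj j))

/-- the character -/
def ps (e : Crv) (Ψ : GQ → Rj j) (g : GQ) : Rj j := Ψ g * sd (ds e.δ) g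

theorem aa_vec (v : Fin 2 → Rj j) : b.aa j Ψ g *ᵥ v = ps e Ψ g • rr e j g v := by
  rw [aa_eq, smul_mulVec]; rfl

theorem hn (j : ℕ) : ((2 ^ j : ℕ) : Rj j) = 0 := by exact_mod_cast two_Rj j

theorem sd_one (d : ℤ) : sd d 1 = 1 := by rw [← one_mul (1 : GQ), sd_mul, sd_sq]

theorem sd_pow (d : ℤ) (g : GQ) (hj : 0 < j) : sd d (g ^ 2 ^ (2 * j)) = 1 := by
  obtain ⟨k, e⟩ : 2 ∣ 2 ^ (2 * j) := dvd_pow_self 2 (by omega)
  rw [e, two_mul, pow_add, sd_mul, sd_sq]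

theorem ov2 (e : Crv) : Ov 2 (e.P 2) := e.ov 2 e.two

theorem fb2 (b : Fld e) : Fb 2 (e.P 2) (b.φ 2) := b.ch.frb 2 e.two

theorem ph_dec (b : Fld e) : b.φ 2 ∈ dec (e.P 2) := phi_mem (ov2 e).1 (ov2 e).2.1 (fb2 b)

theorem ph_mem (b : Fld e) : b.φ 2 ∈ b.Γ := b.ch.mem 2 e.two

variable (h : b.Chr j c Ψ)
include h

theorem psi_one : Ψ 1 = 1 := h.ker 1 (one_mem _)

theorem psi_pow (hg : g ∈ b.Γ) (i : ℕ) : Ψ (g ^ i) = Ψ g ^ i := by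
  induction i with
  | zero => rw [pow_zero, pow_zero, psi_one h]
  | succ i ih => rw [pow_succ, h.mul _ (pow_mem hg i) _ hg, ih, pow_succ]

theorem ps_mul : ∀ g ∈ b.Γ, ∀ g' ∈ b.Γ, ps e Ψ (g * g') = ps e Ψ g * ps e Ψ g' := fun g a g' a' => by
  rw [ps, h.mul g a g' a', sd_mul, Int.cast_mul, mul_mul_mul_comm, ps, ps]

/-- the kernel of the two characters -/
def Hk : Subgroup GQ where
  carrier := {g | g ∈ b.Γ ∧ Ψ g = 1 ∧ sd (ds e.δ) g = 1}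
  mul_mem' a a' := ⟨mul_mem a.1 a'.1, by rw [h.mul _ a.1 _ a'.1, a.2.1, a'.2.1, one_mul],
    by rw [sd_mul, a.2.2, a'.2.2, one_mul]⟩
  one_mem' := ⟨one_mem _, psi_one h, sd_one _⟩
  inv_mem' {g} a := ⟨inv_mem a.1, by
    rw [← psi_one h, ← inv_mul_cancel g, h.mul _ (inv_mem a.1) _ a.1, a.2.1, mul_one], by
    rw [← sd_one (ds e.δ), ← inv_mul_cancel g, sd_mul, a.2.2, mul_one]⟩

theorem hk_cj (hj : 0 < j) : ∀ u ∈ b.Γ, u⁻¹ * b.φ 2 ^ 2 ^ (2 * j) * u ∈ Hk h := fun u hu => by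
  have a := pow_mem (ph_mem b) (2 ^ (2 * j))
  refine ⟨mul_mem (mul_mem (inv_mem hu) a) hu, ?_, by rw [Ra.sd_conj, sd_pow _ _ hj]⟩
  rw [h.mul _ (mul_mem (inv_mem hu) a) _ hu, h.mul _ (inv_mem hu) _ a, psi_pow h (ph_mem b),
    h.ord _ (ph_mem b), mul_one, ← h.mul _ (inv_mem hu) _ hu, inv_mul_cancel, psi_one h]

variable (r1 : RC1) (gns : GNS) (ty : TYQ)
include r1 gns

theorem hc_hk : Hc b.j (cd (∅ : Finset (b.Kp j c Ψ))) ≤ Hk h := fun g hg => by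
  have d := one_pos.trans e.ok.one
  rw [cd_empty] at hg
  exact ⟨hg.1, h.ker g ((r1 _ b.j b.iq _ (Ra.Chr.pos h)).2.2.2.2.2 _ d (mul_comm e.δ c ▸ hg)),
    sd_zero (gns e b g ((r1 _ b.j b.iq _ d).2.2.2.2.2 _ (Ra.Chr.pos h) hg))⟩

theorem ex_frm (M : Finset (b.Kp j c Ψ)) : ∃ U, Fr b.Γ (Hc b.j (cd M)) U (ps e Ψ) :=
  haveI := P022K.G2.cpt
  haveI := Subgroup.quotient_finite_of_isOpen _ (r1 _ b.j b.iq _ (cd_pos h M)).2.1
  ex_fr (fun g a => a.1) (ps_mul h) fun g a => by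
    have := hc_hk h r1 gns (hc_le h r1 (empty_subset M) a)
    rw [ps, this.2.1, this.2.2, Int.cast_one, one_mul]

theorem ex_frk : (∃ U, Fr b.Γ (Hk h) U (ps e Ψ)) ∧
    ∃ T, Fr (Hk h) (Hc b.j (cd (∅ : Finset (b.Kp j c Ψ)))) T fun _ => (1 : ℤ) :=
  haveI := P022K.G2.cpt
  have o := (r1 _ b.j b.iq _ (cd_pos h ∅)).2.1
  haveI := Subgroup.quotient_finite_of_isOpen _ o
  haveI := Subgroup.quotient_finite_of_isOpen _ (Subgroup.isOpen_mono (hc_hk h r1 gns) o)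
  ⟨ex_fr (fun g a => a.1) (ps_mul h) fun g a => by rw [ps, a.2.1, a.2.2, Int.cast_one, one_mul],
    ex_fr (hc_hk h r1 gns) (fun _ _ _ _ => rfl) fun _ _ => rfl⟩

omit r1 gns in
include ty in
theorem in_hc (m : Finset (b.Kp j c Ψ)) (hg : Inert (e.P 2) g) : g ∈ Hc b.j (cd m) :=
  (ty e b).2.2.1 2 _ g _ (ov2 e) hg (b.le 2 e.two (inP_le_dec hg)) (cd_pos h m) (cd_two h m)

/-! ### the place above two -/

variable {F C : AddSubgroup (Pt e.A e.B)} {Z : AddSubgroup Qb} {e₀ : Pt e.A e.B}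
  {ι : Pt e.A e.B → Fin 2 → Rj j} (l : L2 (e.P 2) (e.S'.prod ^ 2) F Z)
  (he : ∀ k, Fe (2 ^ k) F (b.φ 2) (2 ^ (2 * j)) e₀)
include ty l he

theorem psi_dec (hg : g ∈ dec (e.P 2)) : ∃ s : ℕ, Ψ g = Ψ (b.φ 2 ^ s) ∧
    sd (ds e.δ) g = sd (ds e.δ) (b.φ 2 ^ s) ∧
    ∀ i : ℕ, g • b.φ 2 ^ i • e₀ = b.φ 2 ^ s • b.φ 2 ^ i • e₀ := by
  obtain ⟨s, a, u, hu, t, ht, rfl⟩ := l.dg (ov2 e) (fb2 b) (he 0) _
    (r1 _ b.j b.iq _ (cd_pos h ∅)).2.1 hg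
  have a1 := hc_hk h r1 gns hu
  have a2 := hc_hk h r1 gns (in_hc h ty ∅ ht)
  have a3 := pow_mem (ph_mem b) s
  exact ⟨s, by rw [h.mul _ (mul_mem a1.1 a3) _ a2.1, h.mul _ a1.1 _ a3, a1.2.1, a2.2.1, one_mul,
    mul_one], by rw [sd_mul, sd_mul, a1.2.2, a2.2.2, one_mul, mul_one], a⟩

omit h r1 gns ty l he in
/-- the local cocycle depends only on the value of the character at the Frobenius element -/
def ee (b : Fld e) (C : AddSubgroup (Pt e.A e.B)) (ι : Pt e.A e.B → Fin 2 → Rj j) (e₀ : Pt e.A e.B)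
    (a : Rj j) (g : GQ) : Fin 2 → Rj j := ∑ i ∈ range (2 ^ (2 * j)),
  (a ^ (Classical.epsilon (fun s : ℕ => g • e₀ = b.φ 2 ^ s • e₀) + i) *
    sd (ds e.δ) (g * b.φ 2 ^ i)) • bb C (2 ^ j) ι g (b.φ 2 ^ i • e₀)

theorem ee_eq (hg : g ∈ dec (e.P 2)) : ee b C ι e₀ (Ψ (b.φ 2)) g =
    eps C (2 ^ j) ι (ps e Ψ) (b.φ 2) (2 ^ (2 * j)) e₀ g := by
  obtain ⟨s, a1, -, a2⟩ := psi_dec h r1 gns ty l he hg
  have a3 : g • e₀ = b.φ 2 ^ s • e₀ := by simpa using a2 0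
  have a4 := (he 1).cong ((Classical.epsilon_spec (p := fun s : ℕ => g • e₀ = b.φ 2 ^ s • e₀)
    ⟨s, a3⟩).symm.trans a3)
  refine sum_congr rfl fun i _ => ?_
  rw [ps, h.mul _ (b.le 2 e.two hg) _ (pow_mem (ph_mem b) i), a1, psi_pow h (ph_mem b),
    psi_pow h (ph_mem b), pow_add, pow_eq_pow_of_modEq a4 (h.ord _ (ph_mem b))]

variable (kd : Kd (2 ^ j) C ι (rr e j)) (hF : F ≤ C) (hj : 0 < j)
include kd hF hj

theorem ee_coc : ∀ g ∈ dec (e.P 2), ∀ g' ∈ dec (e.P 2), ee b C ι e₀ (Ψ (b.φ 2)) (g * g') =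
    ee b C ι e₀ (Ψ (b.φ 2)) g + b.aa j Ψ g *ᵥ ee b C ι e₀ (Ψ (b.φ 2)) g' := fun g a g' a' => by
  obtain ⟨U, f⟩ := (ex_frk h r1 gns).1
  obtain ⟨s, a1, a2, a3⟩ := psi_dec h r1 gns ty l he a'
  rw [ee_eq h r1 gns ty l he (mul_mem a a'), ee_eq h r1 gns ty l he a, ee_eq h r1 gns ty l he a',
    aa_vec]
  exact eps_mul kd f hF (he j) (ph_mem b) (by simpa using hk_cj h hj 1 (one_mem _))
    (b.le 2 e.two a) (l.st g a) (b.le 2 e.two a') (by rw [ps, ps, a1, a2]) a3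

omit h r1 gns ty l hj in
theorem ee_lc (a : Rj j) : ∃ W : Subgroup GQ, IsOpen (W : Set GQ) ∧
    ∀ w ∈ W, w ∈ dec (e.P 2) → ee b C ι e₀ a w = 0 := by
  obtain ⟨W, h1, h2⟩ := ex_open (range (2 ^ (2 * j))) fun i => dv C (2 ^ j) (b.φ 2 ^ i • e₀)
  exact ⟨W, h1, fun w hw _ => sum_eq_zero fun i hi => by
    rw [kd.zero (hF ((he 0).pw i)) (h2 w hw i hi), smul_zero]⟩

theorem ee_free {N c₂ : ℕ} (hN : Odd N) (idx : ∀ y : Pt e.A e.B, Ur (e.P 2) y →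
      ga (b.φ 2 ^ 2) y = y → Fk (e.P 2) (e.S'.prod ^ 2) ((2 ^ c₂ * N) • y))
    (i3 : ∀ v : Fin 2 → ℤ_[2], ∃ x, 2 ^ j • x = 0 ∧ ι x = fun i => cj j (v i))
    (i4 : ∀ k ≤ j, ∀ x, 2 ^ j • x = 0 → (∀ i, ι x i ∈ Ideal.span {(2 : Rj j) ^ k, mj j X}) →
      2 ^ (j - k) • x = 0) (h1 : ∀ g ∈ b.Γ, Ψ g - 1 ∈ Ideal.span {mj j X}) {k : ℕ} (hk : k ≤ j)
    (s : ℤ_[2]) (v : Fin 2 → ℤ_[2]) (hs : ∀ g ∈ dec (e.P 2), ∀ i,
      cj j s * ee b C ι e₀ (Ψ (b.φ 2)) g i - cj j (((e.rd g - 1) *ᵥ v) i) ∈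
        Ideal.span {(2 : Rj j) ^ k, mj j X}) : 2 ^ k ∣ 2 ^ c₂ * s := by
  obtain ⟨x, x1, x2⟩ := i3 v
  obtain ⟨z, hz⟩ := Ideal.mem_span_singleton.1 (PadicInt.appr_spec j s)
  have s1 : cj j s = (s.appr j : ℤ) := by
    rw [← sub_eq_zero, Int.cast_natCast, ← map_natCast (cj j), ← map_sub]
    exact cj_dvd ⟨z, hz⟩
  have := free_abs (ψ := ps e Ψ) (N := 2 ^ c₂ * N) (s := s.appr j) kd hF (m := 2 ^ (j - k))
    (by rw [← pow_add, Nat.add_sub_cancel' hk]) (he k) (ph_dec b) l.st (sd_mul (ds e.δ)) (sd_sq _)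
    (sd_pow _ _ hj) (fun g hg => (psi_dec h r1 gns ty l he hg).imp fun s a => a.2)
    (J := AddSubgroup.pi Set.univ fun _ => (Ideal.span {(2 : Rj j) ^ k, mj j X}).toAddSubgroup)
    (fun g hg v i _ => ?_) (fun x a a' => i4 k hk x a fun i => a' i trivial) x1 (fun g hg i _ => ?_)
    fun y hy => ?_
  · have a : (2 : ℤ) ^ k ∣ 2 ^ c₂ * s.appr j := by
      refine (IsCoprime.pow_left (m := k) (Int.isCoprime_two_left.2 hN.natCast)).dvd_of_dvd_mul_left ?_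
      push_cast at this
      rwa [mul_comm _ (N : ℤ), mul_assoc] at this
    have a' := map_dvd (Int.castRingHom ℤ_[2]) a
    simp only [eq_intCast, Int.cast_pow, Int.cast_mul, Int.cast_ofNat, Int.cast_natCast] at a'
    rw [sub_eq_iff_eq_add.1 hz, mul_add]
    exact dvd_add (((pow_dvd_pow _ hk).mul_right _).mul_left _) a'
  · have := Ideal.mul_mem_right (sd (ds e.δ) g * v i) _ (Ideal.span_mono
      (Set.subset_insert ((2 : Rj j) ^ k) _) (h1 g (b.le 2 e.two hg)))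
    have e1 : (ps e Ψ g • v - sd (ds e.δ) g • v) i = (Ψ g - 1) * (sd (ds e.δ) g * v i) := by
      rw [Pi.sub_apply, Pi.smul_apply, Pi.smul_apply, smul_eq_mul, zsmul_eq_mul, ps]
      ring
    exact e1 ▸ this
  · convert hs g hg i using 1
    rw [ee_eq h r1 gns ty l he hg, s1, RingHom.map_mulVec, x2, Matrix.map_sub _ (map_sub _),
      Matrix.map_one _ (map_zero _) (map_one _), sub_mulVec, one_mulVec, Crv.rd,
      ← one_smul (Rj j) (Matrix.map (_ • _) _), Ra.map_zs, one_mul, smul_mulVec]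
    simp only [Pi.sub_apply, Pi.smul_apply, smul_eq_mul, zsmul_eq_mul]
    rfl
  · have u : Ur (e.P 2) y := fun g hg => by
      have := hy g (inP_le_dec hg)
      rwa [(hc_hk h r1 gns (in_hc h ty ∅ hg)).2.2, one_smul] at this
    refine (l.mem _).2 ⟨idx y u ?_, fun g hg => by rw [map_nsmul, u g hg]⟩
    have := hy _ (pow_mem (ph_dec b) 2)
    rwa [sq, sd_mul, sd_sq, one_smul, ← sq] at this

end Vale.Agent.P004F.Es
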